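import Vale.Agent.Lib.P078L.TrNormal

/-!
# P078L FinePart: fine partitions of a MASA of a II₁ factor

`masa_diffuse`: let `p ∈ A` be a nonzero projection; by `noMin` there is `q ∈ M`, `0 ≠ q ≠ p`,
`q * p = q`.  If `A` had no projection strictly between `0` and `p` then `a p ∈ ℂ p` for every
`a ∈ A`: for self-adjoint `a ∈ A` the cuts of (a positive multiple plus shift of) `a` are projections
commuting with everything which commutes with `a`, so they are in `A` (`MM.cent`), and their products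
with `p` are `0` or `p`; so `a p` is scalar (or: if `a p` is not a scalar multiple of `p` then the
spectrum of `a p` in the corner has two points and a spectral cut gives a nontrivial projection).
Hence `q` commutes with every `a ∈ A` (`a q = a p q = c q = q a`), so `q ∈ A` by `MM.cent`.
Contradiction.

`exists_trace_fine`: (1) every nonzero projection `e ∈ A` has a nonzero subprojection in `A` with
`τ ≤ τ(e) / 2` (one of `q`, `e - q`), so one with `τ ≤ η`.  (2) Zorn: maximal set `S` of pairwise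
orthogonal nonzero projections of `A` with `τ ≤ η`; the supremum `s` (projection onto the closed
span of the ranges) is in `M` and commutes with `A`, so `s ∈ A`; if `s ≠ 1`, (1) for `1 - s`
contradicts maximality; so `S` is an `OrthFamily` for `1`.  (3) `tr_exhaust`: finite `G ⊆ S` with
`τ(1 - ∑_G e) < η`; partition `G ∪ {1 - ∑_G e}` (`Part.ofFintype` or by hand).
-/

namespace Vale.Agent.P078

open Filter
open scoped InnerProductSpace Topology

universe u

variable {H : Type u} [NormedAddCommGroup H] [InnerProductSpace ℂ H] [CompleteSpace H]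
  {M : VonNeumannAlgebra H} {A : StarSubalgebra ℂ (H →L[ℂ] H)} {τ : (H →L[ℂ] H) →ₗ[ℂ] ℂ}

private theorem finePart_star {e : H →L[ℂ] H} (he : IsStarProjection e) : star e = e :=
  he.isSelfAdjoint

private theorem finePart_comm {e p : H →L[ℂ] H} (he : IsStarProjection e)
    (hp : IsStarProjection p) (h : e * p = e) : p * e = e := by
  have := congrArg star h
  rwa [star_mul, finePart_star he, finePart_star hp] at this

/-- a minimal projection of `A` makes the self-adjoint elements of `A` scalar -/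
private theorem finePart_scalar (h : MM M A) {p : H →L[ℂ] H} (hpA : p ∈ A)
    (hp : IsStarProjection p)
    (hmin : ∀ r ∈ A, IsStarProjection r → r ≠ 0 → r * p = r → r = p) {a : H →L[ℂ] H}
    (ha : a ∈ A) (has : IsSelfAdjoint a) : ∃ c : ℂ, a * p = c • p := by
  obtain ⟨Y, hY⟩ : ∃ Y : H →L[ℂ] H, Y = a + algebraMap ℝ (H →L[ℂ] H) ‖a‖ := ⟨_, rfl⟩
  have hY0 : 0 ≤ Y := by
    have h1 := has.neg_algebraMap_norm_le_self
    rw [hY]
    have h2 : a + algebraMap ℝ (H →L[ℂ] H) ‖a‖ = a - -algebraMap ℝ (H →L[ℂ] H) ‖a‖ := by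
      rw [sub_neg_eq_add]
    rw [h2]
    exact sub_nonneg.2 h1
  have hal : algebraMap ℝ (H →L[ℂ] H) ‖a‖ = ((‖a‖ : ℝ) : ℂ) • (1 : H →L[ℂ] H) := by
    rw [Algebra.algebraMap_eq_smul_one]
    rfl
  have hYA : Y ∈ A := by
    rw [hY, hal]
    exact add_mem ha (A.smul_mem (one_mem A) _)
  obtain ⟨b, hb⟩ : ∃ b : ℝ, b = ‖Y * p‖ := ⟨_, rfl⟩
  have hb0 : 0 ≤ b := by rw [hb]; exact norm_nonneg _
  have hpp : ∀ v, p (p v) = p v := fun v =>
    congrArg (fun T : H →L[ℂ] H => T v) hp.isIdempotentElem.eq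
  have key : ∀ c : ℝ, 0 < c → c < b → ∀ v, c * ‖p v‖ ^ 2 ≤ (⟪p v, Y (p v)⟫_ℂ).re := by
    intro c hc hcb v
    obtain ⟨g, hgM, hgp, hgc, hg1, hg2⟩ := spectral_cut (h.le Y hYA) hY0 hc
    have hgA : g ∈ A := h.cent g hgM fun t ht => hgc t (h.comm t ht Y hYA)
    have hgpA : g * p ∈ A := mul_mem hgA hpA
    have hgpp : IsStarProjection (g * p) := hgp.mul hp (h.comm g hgA p hpA)
    have hgpl : g * p * p = g * p := by rw [mul_assoc, hp.isIdempotentElem.eq]
    have hz : g * p = 0 := by
      by_contra h0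
      have h1 := hmin _ hgpA hgpp h0 hgpl
      have h2 : ‖Y * p‖ ≤ c := by
        refine ContinuousLinearMap.opNorm_le_bound _ hc.le fun w => ?_
        have h3 : (Y * p) w = Y (g (p w)) := by
          have h4 := congrArg (fun T : H →L[ℂ] H => T w) h1
          simp only [mul_apply_eq_comp] at h4
          rw [mul_apply_eq_comp, h4]
        rw [h3]
        have h4 := congrArg (fun T : H →L[ℂ] H => T w) h1
        simp only [mul_apply_eq_comp] at h4
        have h5 := hg1 (p w)
        rw [h4] at h5 ⊢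
        refine h5.trans (mul_le_mul_of_nonneg_left ?_ hc.le)
        have h6 := _root_.P078.Part.e_norm_le (_root_.P078.Part.two p hpA hp) (0 : Fin 2) w
        exact h6
      linarith
    have h2 := hg2 (p v)
    have h3 : (1 - g) (p v) = p v := by
      have h4 := congrArg (fun T : H →L[ℂ] H => T v) hz
      simp only [mul_apply_eq_comp, zero_apply] at h4
      rw [sub_apply, one_apply_eq_self, h4, sub_zero]
    rwa [h3] at h2
  have key2 : ∀ v, b * ‖p v‖ ^ 2 ≤ (⟪p v, Y (p v)⟫_ℂ).re := by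
    intro v
    rcases hb0.eq_or_lt with h0 | h0
    · rw [← h0, zero_mul]
      exact ((ContinuousLinearMap.nonneg_iff_isPositive Y).1 hY0).re_inner_nonneg_right _
    · refine le_of_forall_lt_imp_le_of_dense ?_ |> fun hh => hh
      intro x hx
      by_cases hn : ‖p v‖ ^ 2 = 0
      · rw [hn, mul_zero] at hx
        exact hx.le.trans
          (((ContinuousLinearMap.nonneg_iff_isPositive Y).1 hY0).re_inner_nonneg_right _)
      · have hn0 : 0 < ‖p v‖ ^ 2 := lt_of_le_of_ne (by positivity) (Ne.symm hn)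
        obtain ⟨c, hc1, hc2⟩ : ∃ c, max (x / ‖p v‖ ^ 2) 0 < c ∧ c < b := by
          refine exists_between (max_lt ?_ h0)
          rwa [div_lt_iff₀ hn0]
        have h4 := key c (lt_of_le_of_lt (le_max_right _ _) hc1) hc2 v
        refine le_trans ?_ h4
        have h5 := lt_of_le_of_lt (le_max_left _ _) hc1
        rw [div_lt_iff₀ hn0] at h5
        exact h5.le
  have hYb : Y * p = ((b : ℝ) : ℂ) • p := by
    ext v
    rw [mul_apply_eq_comp, smul_apply]
    have h1 : ‖Y (p v)‖ ≤ b * ‖p v‖ := by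
      have h2 := (Y * p).le_opNorm (p v)
      rw [mul_apply_eq_comp, hpp, ← hb] at h2
      exact h2
    have h3 : ‖Y (p v) - ((b : ℝ) : ℂ) • p v‖ ^ 2 ≤ 0 := by
      have h4 := @norm_sub_sq ℂ H _ _ _ (Y (p v)) (((b : ℝ) : ℂ) • p v)
      rw [h4, inner_smul_right, norm_smul]
      have h5 : RCLike.re (((b : ℝ) : ℂ) * ⟪Y (p v), p v⟫_ℂ) = b * (⟪p v, Y (p v)⟫_ℂ).re := by
        have h6 : (⟪Y (p v), p v⟫_ℂ).re = (⟪p v, Y (p v)⟫_ℂ).re := by
          rw [← inner_conj_symm, Complex.conj_re]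
        rw [← h6]
        exact Complex.re_ofReal_mul _ _
      rw [h5]
      have h7 : ‖((b : ℝ) : ℂ)‖ = b := by
        rw [Complex.norm_real, Real.norm_eq_abs, abs_of_nonneg hb0]
      rw [h7]
      have h8 := key2 v
      have h9 : ‖Y (p v)‖ ^ 2 ≤ (b * ‖p v‖) ^ 2 := pow_le_pow_left₀ (norm_nonneg _) h1 2
      have h10 := mul_le_mul_of_nonneg_left h8 hb0
      nlinarith
    have h4 : ‖Y (p v) - ((b : ℝ) : ℂ) • p v‖ = 0 := by
      have := sq_nonneg ‖Y (p v) - ((b : ℝ) : ℂ) • p v‖
      exact pow_eq_zero_iff (two_ne_zero) |>.1 (le_antisymm h3 this)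
    exact sub_eq_zero.1 (norm_eq_zero.1 h4)
  refine ⟨((b : ℝ) : ℂ) - ((‖a‖ : ℝ) : ℂ), ?_⟩
  have h1 : a = Y - ((‖a‖ : ℝ) : ℂ) • (1 : H →L[ℂ] H) := by
    rw [hY, hal, add_sub_cancel_right]
  conv_lhs => rw [h1]
  rw [sub_mul, hYb, smul_mul_assoc, one_mul, sub_smul]

theorem masa_diffuse (h : MM M A) (hM : ∀ p ∈ M, IsStarProjection p → p ≠ 0 →
    ∃ q ∈ M, IsStarProjection q ∧ q ≠ 0 ∧ q ≠ p ∧ q * p = q) : Diffuse A := by
  intro p hpA hp hp0
  by_contra hcon
  have hmin : ∀ r ∈ A, IsStarProjection r → r ≠ 0 → r * p = r → r = p := by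
    intro r hr hrp hr0 hrm
    by_contra hne
    exact hcon ⟨r, hr, hrp, hr0, hne, hrm⟩
  obtain ⟨q, hqM, hq, hq0, hqp, hqm⟩ := hM p (h.le p hpA) hp hp0
  have hqm' : p * q = q := finePart_comm hq hp hqm
  have hsa : ∀ a ∈ A, IsSelfAdjoint a → a * q = q * a := by
    intro a ha has
    obtain ⟨c, hc⟩ := finePart_scalar h hpA hp hmin ha has
    have h1 : a * q = c • q := by
      rw [← hqm', ← mul_assoc, hc, smul_mul_assoc]
    have h2 : q * a = c • q := by
      rw [← hqm, mul_assoc, h.comm p hpA a ha, hc, mul_smul_comm]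
    rw [h1, h2]
  have hall : ∀ a ∈ A, a * q = q * a := by
    intro a ha
    have hsA : star a ∈ A := star_mem ha
    have h1 : a + star a ∈ A := add_mem ha hsA
    have h2 : Complex.I • (a - star a) ∈ A := A.smul_mem (sub_mem ha hsA) _
    have h3 := hsa _ h1 (by
      rw [IsSelfAdjoint, star_add, star_star, add_comm])
    have h4 := hsa _ h2 (by
      rw [IsSelfAdjoint, star_smul, star_sub, star_star, Complex.star_def, Complex.conj_I,
        neg_smul, ← smul_neg, neg_sub])
    rw [smul_mul_assoc, mul_smul_comm] at h4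
    have h5 : (a - star a) * q = q * (a - star a) := by
      have h6 := congrArg (fun T : H →L[ℂ] H => (-Complex.I) • T) h4
      simp only [smul_smul, neg_mul, Complex.I_mul_I, neg_neg, one_smul] at h6
      exact h6
    have h6 : (a + star a) * q + (a - star a) * q = q * (a + star a) + q * (a - star a) := by
      rw [h3, h5]
    have h7 : (2 : ℂ) • (a * q) = (2 : ℂ) • (q * a) := by
      rw [two_smul, two_smul]
      rw [add_mul, sub_mul, mul_add, mul_sub] at h6
      have e1 : a * q + star a * q + (a * q - star a * q) = a * q + a * q := by abel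
      have e2 : q * a + q * star a + (q * a - q * star a) = q * a + q * a := by abel
      rw [e1, e2] at h6
      exact h6
    exact smul_right_injective _ (two_ne_zero : (2 : ℂ) ≠ 0) h7
  have hqA : q ∈ A := h.cent q hqM hall
  exact hqp (hmin q hqA hq hq0 hqm)

/-- splitting of a projection -/
private theorem finePart_split (hd : Diffuse A) {e : H →L[ℂ] H} (he : e ∈ A)
    (hp : IsStarProjection e) (h0 : e ≠ 0) :
    ∃ q ∈ A, IsStarProjection q ∧ q ≠ 0 ∧ q * e = q ∧ (e - q) ∈ A ∧
      IsStarProjection (e - q) ∧ e - q ≠ 0 ∧ (e - q) * e = e - q := by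
  obtain ⟨q, hqA, hq, hq0, hqe, hqm⟩ := hd e he hp h0
  have h1 : e * q = q := finePart_comm hq hp hqm
  refine ⟨q, hqA, hq, hq0, hqm, sub_mem he hqA, ⟨?_, ?_⟩, fun h => hqe (sub_eq_zero.1 h).symm, ?_⟩
  · change (e - q) * (e - q) = e - q
    rw [mul_sub, sub_mul, sub_mul, hp.isIdempotentElem.eq, hqm, h1, hq.isIdempotentElem.eq]
    abel
  · exact hp.isSelfAdjoint.sub hq.isSelfAdjoint
  · rw [sub_mul, hp.isIdempotentElem.eq, hqm]

/-- a small subprojection of `A` -/
private theorem finePart_small (h : MM M A) (hd : Diffuse A) (hτ : IsTrace M τ)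
    {e : H →L[ℂ] H} (he : e ∈ A) (hp : IsStarProjection e) (h0 : e ≠ 0) {η : ℝ} (hη : 0 < η) :
    ∃ f ∈ A, IsStarProjection f ∧ f ≠ 0 ∧ f * e = f ∧ (τ f).re ≤ η := by
  have hpos : ∀ f ∈ A, IsStarProjection f → 0 ≤ (τ f).re := fun f hf hfp =>
    (tr_nonneg hτ (h.le f hf) hfp.nonneg).1
  have key : ∀ n : ℕ, ∃ f ∈ A, IsStarProjection f ∧ f ≠ 0 ∧ f * e = f ∧
      (τ f).re ≤ (τ e).re / 2 ^ n := by
    intro n
    induction n with
    | zero =>
      exact ⟨e, he, hp, h0, hp.isIdempotentElem.eq, by rw [pow_zero, div_one]⟩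
    | succ n ih =>
      obtain ⟨f, hfA, hf, hf0, hfe, hfn⟩ := ih
      obtain ⟨q, hqA, hq, hq0, hqf, hsA, hs, hs0, hsf⟩ := finePart_split hd hfA hf hf0
      have h2 : (τ f).re = (τ q).re + (τ (f - q)).re := by
        rw [map_sub, Complex.sub_re]; ring
      have h3 : (τ e).re / 2 ^ (n + 1) = ((τ e).re / 2 ^ n) / 2 := by
        rw [div_div, ← pow_succ (2 : ℝ) n]
      rw [h3]
      rcases le_total (τ q).re (τ (f - q)).re with h4 | h4
      · refine ⟨q, hqA, hq, hq0, ?_, by linarith⟩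
        rw [← hqf, mul_assoc, hfe]
      · refine ⟨f - q, hsA, hs, hs0, ?_, by linarith⟩
        rw [← hsf, mul_assoc, hfe]
  obtain ⟨n, hn⟩ : ∃ n : ℕ, (τ e).re / 2 ^ n ≤ η := by
    obtain ⟨n, hn⟩ := pow_unbounded_of_one_lt ((τ e).re / η) (one_lt_two)
    refine ⟨n, ?_⟩
    rw [div_le_iff₀ (by positivity)]
    rw [div_lt_iff₀ hη] at hn
    linarith
  obtain ⟨f, h1, h2, h3, h4, h5⟩ := key n
  exact ⟨f, h1, h2, h3, h4, h5.trans hn⟩

/-- Zorn -/
private theorem finePart_family (h : MM M A) (hd : Diffuse A) (hτ : IsTrace M τ) {η : ℝ}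
    (hη : 0 < η) : ∃ S : Set (H →L[ℂ] H), OrthFamily M 1 S ∧ ∀ e ∈ S, e ∈ A ∧ (τ e).re ≤ η := by
  classical
  let F : Set (Set (H →L[ℂ] H)) := {S | (∀ e ∈ S, e ∈ A ∧ IsStarProjection e ∧ e ≠ 0 ∧
    (τ e).re ≤ η) ∧ ∀ e ∈ S, ∀ e' ∈ S, e ≠ e' → e * e' = 0}
  obtain ⟨S, hS⟩ : ∃ S, Maximal (· ∈ F) S := by
    refine zorn_subset F fun c hc hch => ⟨⋃₀ c, ⟨?_, ?_⟩, fun s hs => Set.subset_sUnion_of_mem hs⟩
    · rintro e ⟨s, hs, hes⟩
      exact (hc hs).1 e hes
    · rintro e ⟨s, hs, hes⟩ e' ⟨s', hs', hes'⟩ hne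
      rcases hch.total hs hs' with h | h
      · exact (hc hs').2 e (h hes) e' hes' hne
      · exact (hc hs).2 e hes e' (h hes') hne
  have hSF : S ∈ F := hS.prop
  refine ⟨S, ⟨fun e he => h.le e (hSF.1 e he).1, fun e he => (hSF.1 e he).2.1, hSF.2,
    fun e he => mul_one e, fun v hv => ?_⟩, fun e he => ⟨(hSF.1 e he).1, (hSF.1 e he).2.2.2⟩⟩
  by_contra hpv
  rw [one_apply_eq_self] at hpv
  -- the closed span of the ranges
  let W : Set H := {w | ∃ e ∈ S, e w = w}
  let K : Submodule ℂ H := (Submodule.span ℂ W).topologicalClosure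
  have hWK : ∀ w ∈ W, w ∈ K := fun w hw =>
    Submodule.le_topologicalClosure _ (Submodule.subset_span hw)
  have hKc : IsClosed (K : Set H) := Submodule.isClosed_topologicalClosure _
  have hKcomp : CompleteSpace K := hKc.completeSpace_coe
  have hKle : ∀ (L : Submodule ℂ H), IsClosed (L : Set H) → (∀ w ∈ W, w ∈ L) → K ≤ L :=
    fun L hL hw => Submodule.topologicalClosure_minimal _ (Submodule.span_le.2 hw) hL
  have hee : ∀ e ∈ S, ∀ w, e (e w) = e w := fun e he w =>
    congrArg (fun T : H →L[ℂ] H => T w) ((hSF.1 e he).2.1.isIdempotentElem.eq)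
  have hinv : ∀ t : H →L[ℂ] H, (∀ e ∈ S, e * t = t * e) → ∀ v ∈ K, t v ∈ K := by
    intro t ht
    have h1 : K ≤ K.comap (t : H →ₗ[ℂ] H) := by
      refine hKle _ (hKc.preimage t.continuous) ?_
      rintro w ⟨e, he, hew⟩
      refine hWK _ ⟨e, he, ?_⟩
      have h2 := congrArg (fun T : H →L[ℂ] H => T w) (ht e he)
      simp only [mul_apply_eq_comp] at h2
      change e (t w) = t w
      rw [h2, hew]
    exact fun v hv => h1 hv
  obtain ⟨s, hs⟩ : ∃ s : H →L[ℂ] H, s = K.starProjection := ⟨_, rfl⟩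
  have hsM : s ∈ M := by
    rw [hs]
    exact proj_mem_M fun t ht => hinv t fun e he => comm_of_mem (h.le e (hSF.1 e he).1) ht
  have hsA : s ∈ A := by
    refine h.cent s hsM fun a ha => ?_
    rw [hs]
    exact _root_.P078.commute_of_invt
      (hinv a fun e he => h.comm e (hSF.1 e he).1 a ha)
      (hinv (star a) fun e he => h.comm e (hSF.1 e he).1 _ (star_mem ha))
  have hsp : IsStarProjection s := by rw [hs]; exact isStarProjection_starProjection
  have hse : ∀ e ∈ S, s * e = e := by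
    intro e he
    ext w
    rw [hs]
    exact Submodule.starProjection_eq_self_iff.mpr (hWK _ ⟨e, he, hee e he w⟩)
  have hsv : s v = 0 := by
    rw [hs, Submodule.starProjection_apply_eq_zero_iff]
    have h1 : K ≤ (ℂ ∙ v)ᗮ := by
      refine hKle _ (Submodule.isClosed_orthogonal _) ?_
      rintro w ⟨e, he, hew⟩
      rw [Submodule.mem_orthogonal_singleton_iff_inner_right]
      have h2 : star e = e := finePart_star (hSF.1 e he).2.1
      rw [← hew, ← ContinuousLinearMap.adjoint_inner_left, ← ContinuousLinearMap.star_eq_adjoint,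
        h2, hv e he, inner_zero_left]
    rw [Submodule.mem_orthogonal]
    intro u hu
    have := h1 hu
    rw [Submodule.mem_orthogonal_singleton_iff_inner_left] at this
    exact this
  have hq0 : 1 - s ≠ 0 := by
    intro h0
    have := congrArg (fun T : H →L[ℂ] H => T v) h0
    change v - s v = 0 at this
    rw [hsv, sub_zero] at this
    exact hpv this
  have hqA : 1 - s ∈ A := sub_mem (one_mem A) hsA
  obtain ⟨e, heA, hep, he0, heq, heη⟩ := finePart_small h hd hτ hqA hsp.one_sub hq0 hη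
  have hee' : ∀ e' ∈ S, e * e' = 0 := by
    intro e' he'
    rw [← heq, mul_assoc, sub_mul, one_mul, hse e' he', sub_self, mul_zero]
  have hin : insert e S ∈ F := by
    refine ⟨?_, ?_⟩
    · rintro e' (rfl | he')
      · exact ⟨heA, hep, he0, heη⟩
      · exact hSF.1 e' he'
    · rintro a (rfl | ha) b (rfl | hb) hne
      · exact absurd rfl hne
      · exact hee' b hb
      · have := congrArg star (hee' a ha)
        rwa [star_mul, star_zero, finePart_star hep, finePart_star (hSF.1 a ha).2.1] at this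
      · exact hSF.2 a ha b hb hne
  have heS : e ∈ S := hS.le_of_ge hin (Set.subset_insert e S) (Set.mem_insert e S)
  have := hee' e heS
  rw [hep.isIdempotentElem.eq] at this
  exact he0 this

theorem exists_trace_fine (h : MM M A) (hd : Diffuse A) (hτ : IsTrace M τ) {η : ℝ} (hη : 0 < η) :
    ∃ f : _root_.P078.Part A, ∀ i, (τ (f.e i)).re ≤ η := by
  classical
  obtain ⟨S, hS, hSA⟩ := finePart_family h hd hτ hη
  obtain ⟨G, hGS, hG⟩ := tr_exhaust hτ (one_mem M) (IsStarProjection.one _) hS hη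
  obtain ⟨g, hg⟩ : ∃ g : Fin G.card → H →L[ℂ] H, g = fun k => (G.equivFin.symm k : H →L[ℂ] H) :=
    ⟨_, rfl⟩
  have hgS : ∀ k, g k ∈ S := fun k => by
    rw [hg]
    exact hGS (G.equivFin.symm k).2
  have hgo : ∀ k l, k ≠ l → g k * g l = 0 := by
    intro k l hkl
    refine hS.orth _ (hgS k) _ (hgS l) fun h1 => hkl ?_
    rw [hg] at h1
    exact G.equivFin.symm.injective (Subtype.ext h1)
  have hgs : ∑ k, g k = ∑ e ∈ G, e := by
    rw [← Finset.sum_coe_sort G (fun e => e), ← Equiv.sum_comp G.equivFin.symm, hg]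
  obtain ⟨s, hs⟩ : ∃ s : H →L[ℂ] H, s = ∑ k, g k := ⟨_, rfl⟩
  have hsA : s ∈ A := by
    rw [hs]
    exact sum_mem fun k _ => (hSA _ (hgS k)).1
  have hgl : ∀ k, g k * s = g k := by
    intro k
    rw [hs, Finset.mul_sum, Finset.sum_eq_single k]
    · exact (hS.proj _ (hgS k)).isIdempotentElem.eq
    · intro l _ hl
      exact hgo k l hl.symm
    · intro h1
      exact absurd (Finset.mem_univ k) h1
  have hsp : IsStarProjection s := by
    refine ⟨?_, ?_⟩
    · rw [IsIdempotentElem]
      conv_lhs => rw [hs, ← hs, hs, Finset.sum_mul, ← hs]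
      rw [Finset.sum_congr rfl fun k _ => hgl k, hs]
    · rw [IsSelfAdjoint, hs, star_sum]
      exact Finset.sum_congr rfl fun k _ => finePart_star (hS.proj _ (hgS k))
  have hgr : ∀ k, s * g k = g k := fun k => finePart_comm (hS.proj _ (hgS k)) hsp (hgl k)
  refine ⟨_root_.P078.Part.ofFintype (ι := Option (Fin G.card))
    (fun i => Option.elim i (1 - s) g) ?_ ?_ ?_ ?_, ?_⟩
  · rintro (_ | k)
    · exact sub_mem (one_mem A) hsA
    · exact (hSA _ (hgS k)).1
  · rintro (_ | k)
    · exact hsp.one_sub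
    · exact hS.proj _ (hgS k)
  · rintro (_ | k) (_ | l) hkl
    · exact absurd rfl hkl
    · change (1 - s) * g l = 0
      rw [sub_mul, one_mul, hgr, sub_self]
    · change g k * (1 - s) = 0
      rw [mul_sub, mul_one, hgl, sub_self]
    · exact hgo k l fun h1 => hkl (congrArg some h1)
  · rw [Fintype.sum_option]
    change 1 - s + ∑ k, g k = 1
    rw [← hs, sub_add_cancel]
  · intro i
    have hall : ∀ i : Option (Fin G.card), (τ (Option.elim i (1 - s) g)).re ≤ η := by
      rintro (_ | k)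
      · change (τ (1 - s)).re ≤ η
        rw [hs, hgs]
        exact hG.le
      · exact (hSA _ (hgS k)).2
    exact hall _

end Vale.Agent.P078
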