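import Vale.Agent.Lib.P078L.Base

/-!
# P078L Group: grouping a fine partition into `n` pieces of almost equal trace

`group_real` (pure combinatorics): `t : Fin N → ℝ`, `0 ≤ t i ≤ η`, `∑ t = 1`, `n ≥ 1`, `η ≤ 1 / n`:
there is `κ : Fin N → Fin n` with `|∑_{κ i = k} t i - 1/n| ≤ η` for every `k`.  Take partial sums
`s_i = ∑_{j < i} t_j ∈ [0, 1]` and `κ i = min (n - 1) ⌊n s_i⌋`.  The group `k` consists of the `i` with
`s_i ∈ [k/n, (k+1)/n)` (last group: `≥ (n-1)/n`); its sum telescopes to `s_b - s_a`, `s_a` the first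
value `≥ k/n` (so `s_a < k/n + η` by `t ≤ η`), `s_b` the first value `≥ (k+1)/n` (or `1`).  Or: by
induction on `n` (greedy) with a convenient stronger statement, for instance: there are
`0 = c_0 ≤ c_1 ≤ .. ≤ c_n = N` with `|s_{c_k} - k/n| ≤ η / 2`-like bounds; choose `c_k` minimal with
`s_{c_k} ≥ k/n`, then `k/n ≤ s_{c_k} < k/n + η` and the group sums differ from `1/n` by less than `η`.

`exists_equal`: `e k = ∑_{κ i = k} f.e i`, `t i = (τ (f.e i)).re`.
-/

namespace Vale.Agent.P078

open Filter
open scoped InnerProductSpace Topology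

universe u

private theorem group_nat {n : ℕ} (hn : 1 ≤ n) (t : ℕ → ℝ) (h0 : ∀ i, 0 ≤ t i) {η : ℝ}
    (hη : ∀ i, t i ≤ η) (hηn : η ≤ 1 / n) (N : ℕ) (hs : ∑ i ∈ Finset.range N, t i = 1) :
    ∃ κ : ℕ → Fin n, ∀ k,
      |∑ i ∈ Finset.range N, (if κ i = k then t i else 0) - 1 / n| ≤ η := by
  have hn0 : (0 : ℝ) < n := by exact_mod_cast hn
  set S : ℕ → ℝ := fun m => ∑ i ∈ Finset.range m, t i with hSdef
  have hS : ∀ m, S (m + 1) = S m + t m := fun m => Finset.sum_range_succ _ _
  have hS0 : ∀ m, 0 ≤ S m := fun m => Finset.sum_nonneg fun i _ => h0 i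
  have hmono : Monotone S := monotone_nat_of_le_succ fun m => by
    rw [hS]
    linarith [h0 m]
  have hS1 : ∀ m ≤ N, S m ≤ 1 := fun m hm => (hmono hm).trans_eq hs
  have hη0 : 0 ≤ η := (h0 0).trans (hη 0)
  have hex : ∀ i, ∃ k : Fin n, S i < 1 →
      ((k.val : ℝ) / n ≤ S i ∧ S i < ((k.val : ℝ) + 1) / n) := by
    intro i
    by_cases hi : S i < 1
    · have h1 : 0 ≤ n * S i := mul_nonneg hn0.le (hS0 i)
      have h2 : (⌊n * S i⌋₊ : ℝ) ≤ n * S i := Nat.floor_le h1
      have h3 : n * S i < (⌊n * S i⌋₊ : ℝ) + 1 := Nat.lt_floor_add_one _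
      have h4 : (⌊n * S i⌋₊ : ℝ) < n := by
        refine h2.trans_lt ?_
        calc n * S i < n * 1 := mul_lt_mul_of_pos_left hi hn0
          _ = n := mul_one _
      refine ⟨⟨⌊n * S i⌋₊, by exact_mod_cast h4⟩, fun _ => ⟨?_, ?_⟩⟩
      · rw [div_le_iff₀ hn0]
        linarith
      · rw [lt_div_iff₀ hn0]
        linarith
    · exact ⟨⟨0, hn⟩, fun h => absurd h hi⟩
  choose κ hκ using hex
  refine ⟨κ, fun k => ?_⟩
  set a : ℝ := (k.val : ℝ) / n with ha
  set b : ℝ := ((k.val : ℝ) + 1) / n with hb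
  have hab : b - a = 1 / n := by
    rw [ha, hb, ← sub_div]
    congr 1
    ring
  have ha0 : 0 ≤ a := by positivity
  have hb0 : 0 < b := by positivity
  have hb1 : b ≤ 1 := by
    rw [hb, div_le_one hn0]
    exact_mod_cast k.isLt
  have hin : ∀ i, S i < 1 → (κ i = k ↔ a ≤ S i ∧ S i < b) := by
    intro i hi
    constructor
    · intro h
      have h1 := hκ i hi
      rw [h] at h1
      exact h1
    · rintro ⟨h1, h2⟩
      obtain ⟨h3, h4⟩ := hκ i hi
      apply Fin.ext
      have h5 : ((κ i).val : ℝ) < (k.val : ℝ) + 1 := by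
        have := h3.trans_lt h2
        exact (div_lt_div_iff_of_pos_right hn0).1 this
      have h6 : (k.val : ℝ) < ((κ i).val : ℝ) + 1 := by
        have := h1.trans_lt h4
        exact (div_lt_div_iff_of_pos_right hn0).1 this
      have h7 : (κ i).val < k.val + 1 := by exact_mod_cast h5
      have h8 : k.val < (κ i).val + 1 := by exact_mod_cast h6
      omega
  set G : ℕ → ℝ := fun m => ∑ i ∈ Finset.range m, (if κ i = k then t i else 0) with hGdef
  have hG : ∀ m, G (m + 1) = G m + (if κ m = k then t m else 0) := fun m =>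
    Finset.sum_range_succ _ _
  have claim : ∀ m ≤ N, (S m < a ∧ G m = 0) ∨
      (a ≤ S m ∧ S m < b ∧ S m - a - η ≤ G m ∧ G m ≤ S m - a) ∨
      (b ≤ S m ∧ 1 / n - η ≤ G m ∧ G m ≤ 1 / n + η) := by
    intro m
    induction m with
    | zero =>
      intro _
      have e1 : S 0 = 0 := Finset.sum_range_zero _
      have e2 : G 0 = 0 := Finset.sum_range_zero _
      rw [e1, e2]
      rcases ha0.eq_or_lt with h | h
      · right
        left
        refine ⟨h.symm.le, hb0, ?_, ?_⟩ <;> linarith
      · left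
        exact ⟨h, rfl⟩
    | succ m ih =>
      intro hm
      have hm' : m ≤ N := (Nat.le_succ m).trans hm
      have ht0 := h0 m
      have htη := hη m
      have hSm := hS m
      have hS1m := hS1 (m + 1) hm
      rcases ih hm' with ⟨h1, h2⟩ | ⟨h1, h2, h3, h4⟩ | ⟨h1, h2, h3⟩
      · have hk : κ m ≠ k := fun h =>
          absurd ((hin m (by linarith)).1 h).1 (not_le.2 h1)
        have e1 : G (m + 1) = 0 := by
          rw [hG, if_neg hk, h2, add_zero]
        rcases lt_or_ge (S (m + 1)) a with h5 | h5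
        · left
          exact ⟨h5, e1⟩
        · right
          left
          rw [e1]
          refine ⟨h5, ?_, ?_, ?_⟩ <;> linarith
      · have hk : κ m = k := (hin m (by linarith)).2 ⟨h1, h2⟩
        have e1 : G (m + 1) = G m + t m := by
          rw [hG, if_pos hk]
        right
        rw [e1]
        rcases lt_or_ge (S (m + 1)) b with h5 | h5
        · left
          refine ⟨?_, h5, ?_, ?_⟩ <;> linarith
        · right
          refine ⟨h5, ?_, ?_⟩ <;> linarith
      · right
        right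
        have e1 : G (m + 1) = G m := by
          rw [hG]
          by_cases hk : κ m = k
          · rw [if_pos hk]
            by_cases h6 : S m < 1
            · exact absurd ((hin m h6).1 hk).2 (not_lt.2 h1)
            · have h7 : t m = 0 := by
                have h8 := not_lt.1 h6
                linarith
              rw [h7, add_zero]
          · rw [if_neg hk, add_zero]
        rw [e1]
        exact ⟨by linarith, h2, h3⟩
  have hSN : S N = 1 := hs
  rcases claim N le_rfl with ⟨h1, -⟩ | ⟨-, h2, -, -⟩ | ⟨-, h2, h3⟩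
  · exfalso
    linarith
  · exfalso
    linarith
  · rw [abs_le]
    change -η ≤ G N - 1 / n ∧ G N - 1 / n ≤ η
    constructor <;> linarith

theorem group_real {N n : ℕ} (hn : 1 ≤ n) (t : Fin N → ℝ) (h0 : ∀ i, 0 ≤ t i) {η : ℝ}
    (hη : ∀ i, t i ≤ η) (hηn : η ≤ 1 / n) (hs : ∑ i, t i = 1) :
    ∃ κ : Fin N → Fin n, ∀ k, |∑ i, (if κ i = k then t i else 0) - 1 / n| ≤ η := by
  have hN : 0 < N := by
    rcases Nat.eq_zero_or_pos N with h | h
    · subst h
      rw [Fin.sum_univ_zero] at hs
      exact absurd hs (by norm_num)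
    · exact h
  have hη0 : 0 ≤ η := (h0 ⟨0, hN⟩).trans (hη _)
  set t' : ℕ → ℝ := fun j => if h : j < N then t ⟨j, h⟩ else 0 with ht'
  have ht : ∀ i : Fin N, t' i.val = t i := fun i => by
    rw [ht']
    simp only
    rw [dif_pos i.isLt]
  obtain ⟨κ, hκ⟩ := group_nat hn t' (fun j => by
      rw [ht']
      simp only
      split_ifs
      · exact h0 _
      · exact le_rfl) (fun j => by
      rw [ht']
      simp only
      split_ifs
      · exact hη _
      · exact hη0) hηn N (by
      rw [Finset.sum_range, ← hs]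
      exact Finset.sum_congr rfl fun i _ => ht i)
  refine ⟨fun i => κ i.val, fun k => ?_⟩
  have h1 := hκ k
  rw [Finset.sum_range] at h1
  simp only [ht] at h1
  exact h1

variable {H : Type u} [NormedAddCommGroup H] [InnerProductSpace ℂ H] [CompleteSpace H]
  {A : StarSubalgebra ℂ (H →L[ℂ] H)}

theorem exists_equal {n : ℕ} (hn : 1 ≤ n) {τ : (H →L[ℂ] H) →ₗ[ℂ] ℂ} (h1 : τ 1 = 1)
    (f : _root_.P078.Part A) (h0 : ∀ i, 0 ≤ (τ (f.e i)).re) {η : ℝ}
    (hη : ∀ i, (τ (f.e i)).re ≤ η) (hηn : η ≤ 1 / n) :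
    ∃ e : Fin n → H →L[ℂ] H, IsPartition A e ∧ ∀ k, |(τ (e k)).re - 1 / n| ≤ η := by
  have hsum : ∑ i, (τ (f.e i)).re = 1 := by
    rw [← Complex.re_sum, ← map_sum, f.sum, h1]
    rfl
  obtain ⟨κ, hκ⟩ := group_real hn (fun i => (τ (f.e i)).re) h0 hη hηn hsum
  have hmul : ∀ k l : Fin n, (∑ i, (if κ i = k then f.e i else 0)) *
      (∑ i, (if κ i = l then f.e i else 0)) =
      ∑ i, (if κ i = k then (if κ i = l then f.e i else 0) else 0) := by
    intro k l
    rw [Finset.sum_mul]
    refine Finset.sum_congr rfl fun i _ => ?_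
    rw [Finset.mul_sum, Finset.sum_eq_single i]
    · split_ifs
      · exact (f.proj i).isIdempotentElem
      · exact mul_zero _
      · exact zero_mul _
      · exact zero_mul _
    · intro j _ hj
      split_ifs
      · exact f.orth i j hj.symm
      · exact mul_zero _
      · exact zero_mul _
      · exact zero_mul _
    · intro h
      exact absurd (Finset.mem_univ i) h
  refine ⟨fun k => ∑ i, (if κ i = k then f.e i else 0), ⟨?_, ?_, ?_, ?_⟩, fun k => ?_⟩
  · intro k
    refine sum_mem fun i _ => ?_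
    split_ifs
    · exact f.mem i
    · exact zero_mem _
  · intro k
    refine ⟨?_, ?_⟩
    · change _ * _ = _
      rw [hmul]
      refine Finset.sum_congr rfl fun i _ => ?_
      split_ifs <;> rfl
    · change star _ = _
      rw [star_sum]
      refine Finset.sum_congr rfl fun i _ => ?_
      split_ifs
      · exact (f.proj i).isSelfAdjoint
      · exact star_zero _
  · intro k l hkl
    rw [hmul]
    refine Finset.sum_eq_zero fun i _ => ?_
    split_ifs with h2 h3
    · exact absurd (h2.symm.trans h3) hkl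
    · rfl
    · rfl
  · rw [Finset.sum_comm, ← f.sum]
    refine Finset.sum_congr rfl fun i _ => ?_
    rw [Finset.sum_ite_eq]
    exact if_pos (Finset.mem_univ _)
  · have h2 : (τ (∑ i, (if κ i = k then f.e i else 0))).re =
        ∑ i, (if κ i = k then (τ (f.e i)).re else 0) := by
      rw [map_sum, Complex.re_sum]
      refine Finset.sum_congr rfl fun i _ => ?_
      split_ifs
      · rfl
      · rw [map_zero]
        rfl
    rw [h2]
    exact hκ k

end Vale.Agent.P078
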