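import Mathlib

/-!
# P078L Hadamard: symmetric orthogonal matrices with entries `± 1 / √n`, `n = 2 ^ k`

Induction on `k` (Sylvester): `F_{k+1} = (1/√2) [[F_k, F_k], [F_k, -F_k]]`, or explicitly
`F i j = (1/√n) * (-1) ^ (number of common binary digits)`; or first on the index type
`Fin k → Bool` (`F x y = ∏ i, (1/√2) * (if x i && y i then -1 else 1)`, product structure makes
everything a product over `i`) and then transport along `Fintype.equivFin`-like equivalence
`(Fin k → Bool) ≃ Fin (2 ^ k)` (`Fintype.card` computation).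
-/

namespace Vale.Agent.P078

private noncomputable def hadE (b c : Bool) : ℝ :=
  (Real.sqrt 2)⁻¹ * (if b && c then -1 else 1)

private lemma hadE_symm (b c : Bool) : hadE b c = hadE c b := by
  unfold hadE
  rw [Bool.and_comm]

private lemma hadE_r : (Real.sqrt 2)⁻¹ * (Real.sqrt 2)⁻¹ = (1 / 2 : ℝ) := by
  rw [← mul_inv, Real.mul_self_sqrt (by norm_num)]
  norm_num

private lemma hadE_sq (b c : Bool) : hadE b c ^ 2 = 1 / 2 := by
  have h := hadE_r
  unfold hadE
  by_cases hbc : (b && c) = true
  · rw [if_pos hbc]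
    linear_combination h
  · rw [if_neg hbc]
    linear_combination h

private lemma hadE_orth (b c : Bool) : ∑ a : Bool, hadE b a * hadE a c = if b = c then 1 else 0 := by
  have h := hadE_r
  rw [Fintype.sum_bool]
  unfold hadE
  rcases b with _ | _ <;> rcases c with _ | _ <;>
    simp only [Bool.and_true, Bool.and_false, Bool.true_and, Bool.false_and, if_true,
      Bool.false_eq_true, if_false, Bool.true_eq_false, reduceCtorEq]
  · linear_combination (2 : ℝ) * h
  · ring
  · ring
  · linear_combination (2 : ℝ) * h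

private noncomputable def hadB (k : ℕ) (x y : Fin k → Bool) : ℝ := ∏ i, hadE (x i) (y i)

private lemma hadB_orth (k : ℕ) (x z : Fin k → Bool) :
    ∑ y, hadB k x y * hadB k y z = if x = z then 1 else 0 := by
  unfold hadB
  have h1 : ∀ y : Fin k → Bool, (∏ i, hadE (x i) (y i)) * ∏ i, hadE (y i) (z i) =
      ∏ i, (hadE (x i) (y i) * hadE (y i) (z i)) := fun y => (Finset.prod_mul_distrib).symm
  simp only [h1]
  have h2 := (Finset.prod_univ_sum (fun _ : Fin k => (Finset.univ : Finset Bool))
    (fun i a => hadE (x i) a * hadE a (z i)))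
  rw [Fintype.piFinset_univ] at h2
  rw [← h2]
  simp only [hadE_orth]
  by_cases hxz : x = z
  · subst hxz
    simp
  · rw [if_neg hxz]
    obtain ⟨i, hi⟩ := Function.ne_iff.1 hxz
    exact Finset.prod_eq_zero (Finset.mem_univ i) (if_neg hi)

theorem exists_hadamard (k : ℕ) : ∃ F : Fin (2 ^ k) → Fin (2 ^ k) → ℝ,
    (∀ i j, F i j = F j i) ∧ (∀ i j, F i j ^ 2 = 1 / (2 ^ k : ℝ)) ∧
      ∀ i l, ∑ j, F i j * F j l = if i = l then 1 else 0 := by
  have hc : Fintype.card (Fin k → Bool) = 2 ^ k := by simp
  obtain ⟨e⟩ : Nonempty (Fin (2 ^ k) ≃ (Fin k → Bool)) :=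
    ⟨(Fintype.equivFinOfCardEq hc).symm⟩
  refine ⟨fun i j => hadB k (e i) (e j), fun i j => ?_, fun i j => ?_, fun i l => ?_⟩
  · unfold hadB
    exact Finset.prod_congr rfl fun a _ => hadE_symm _ _
  · unfold hadB
    rw [← Finset.prod_pow, Finset.prod_congr rfl fun a _ => hadE_sq _ _]
    rw [Finset.prod_const, Finset.card_univ, Fintype.card_fin, div_pow, one_pow]
  · dsimp only
    rw [Equiv.sum_comp e (fun y => hadB k (e i) y * hadB k y (e l)), hadB_orth]
    simp only [EmbeddingLike.apply_eq_iff_eq]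

end Vale.Agent.P078
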