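import Vale.Agent.Lib.P078L.Trace

/-!
# P078L TestOp: the test operator

`x = ∑ i j, F i j • (v i * star (v j))`.
* `x ∈ M`, self-adjoint (`F` real symmetric).
* `‖x‖ ≤ 1`: for a vector `ξ` put `η_j = star (v j) ξ`; `∑ ‖η_j‖² = ∑ ‖star (v j) (e j ξ)‖² ≤
  ∑ ‖e j ξ‖² = ‖ξ‖²` (`star (v j) = star (v j) * e j`, `‖v j‖ ≤ 1` as a partial isometry);
  `x ξ = ∑_i v_i (∑_j F i j η_j)`, the vectors `v_i (..)` are orthogonal (ranges in `e i`), so
  `‖x ξ‖² ≤ ∑_i ‖∑_j F i j η_j‖² = ∑ ‖η_j‖² ≤ ‖ξ‖²` (`F` orthogonal).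
* For a projection `p ∈ A` let `α i = star (v i) * p * v i ∈ M`.  `star (v i) * p * v j = 0` for
  `i ≠ j` (`p` commutes with `e i`, `e i * e j = 0`).  So `p x p x p = p ∑_{i,j,l} F i j F j l
  v_i α_j star(v_l) p` and by traciality `τ(p x p x) = ∑_{i,j,l} F i j F j l τ(star(v_l) p v_i α_j)
  = ∑_{i,j} (F i j)² τ(α_i α_j) = (1/n) τ(S * S)`, `S = ∑ α i`, `0 ≤ S`, `S = S * e i₀`
  (`v i * e i₀ = v i`).  Cauchy-Schwarz (`tr_cs` with `star (e i₀)` and `S`): `(τ S)² ≤ τ(e i₀) τ(S S)`.
  `τ(α i) = τ(p v_i star(v_i)) ≥ τ(p e_i) - η` because `τ(p (e_i - v_i star(v_i))) ≤ τ(e_i -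
  v_i star(v_i)) ≤ η` (`e_i - v_i v_i⋆` is a projection of `M`), so `m = τ(S) ≥ τ(p) - n η`, `m ≥ 0`, and
  `m² ≥ τ(p)² - 2 n η` (`0 ≤ τ(p) ≤ 1`).
* For `a ∈ A`: `τ(v_i star(v_j) a) = τ(v_i star(v_j) e_j a)`, `= τ(a v_i star(v_j))`, and
  `star(v_j) a v_i = star(v_j) e_j a e_i v_i = 0` for `i ≠ j`; so `τ(x a) = ∑_i F i i τ(star(v_i) a v_i)`
  and `|τ(star(v_i) a v_i)| ≤ ‖a‖ τ(star(v_i) v_i) = ‖a‖ τ(v_i star(v_i)) ≤ ‖a‖ τ(e_i)` (`tr_cs`:
  `|τ(star(v) (a v))|² ≤ τ(v⋆v) τ(v⋆ a⋆ a v) ≤ τ(v⋆ v)² ‖a‖²` by `tr_conj_le`), `|F i i| = 1/√n`,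
  `∑ τ(e_i) = 1`.
-/

namespace Vale.Agent.P078

open Filter
open scoped InnerProductSpace Topology

universe u

variable {H : Type u} [NormedAddCommGroup H] [InnerProductSpace ℂ H] [CompleteSpace H]
  {M : VonNeumannAlgebra H} {A : StarSubalgebra ℂ (H →L[ℂ] H)} {τ : (H →L[ℂ] H) →ₗ[ℂ] ℂ}

private theorem to_star_apply (y : H →L[ℂ] H) (a b : H) : ⟪a, star y b⟫_ℂ = ⟪y a, b⟫_ℂ := by
  rw [ContinuousLinearMap.star_eq_adjoint, ContinuousLinearMap.adjoint_inner_right]

private theorem to_sq (y : H →L[ℂ] H) (ξ : H) :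
    ‖star y ξ‖ ^ 2 = (⟪ξ, (y * star y) ξ⟫_ℂ).re := by
  have h1 : (y * star y) ξ = y (star y ξ) := rfl
  have h2 := to_star_apply (star y) ξ (star y ξ)
  rw [star_star] at h2
  rw [h1, h2, inner_self_eq_norm_sq_to_K]
  norm_cast

omit [CompleteSpace H] in
private theorem to_norm_sum {n : ℕ} (w : Fin n → H) (h : ∀ i j, i ≠ j → ⟪w i, w j⟫_ℂ = 0) :
    ‖∑ i, w i‖ ^ 2 = ∑ i, ‖w i‖ ^ 2 := by
  have h1 : ((‖∑ i, w i‖ : ℂ)) ^ 2 = ∑ i, (‖w i‖ : ℂ) ^ 2 := by
    rw [← Complex.coe_algebraMap]
    rw [← inner_self_eq_norm_sq_to_K (𝕜 := ℂ), sum_inner]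
    refine Finset.sum_congr rfl fun i _ => ?_
    rw [inner_sum, Finset.sum_eq_single i (fun j _ hj => h i j (Ne.symm hj))
      (fun hi => absurd (Finset.mem_univ i) hi), inner_self_eq_norm_sq_to_K (𝕜 := ℂ)]
  exact_mod_cast h1

private theorem to_norm_le {e f v : H →L[ℂ] H} (h : PIso M e f v) : ‖v‖ ≤ 1 := by
  have h1 : ‖star v * v‖ ≤ 1 := h.init.norm_le
  rw [CStarRing.norm_star_mul_self] at h1
  nlinarith [norm_nonneg v]

private theorem to_tr_le (hτ : IsTrace M τ) {a v : H →L[ℂ] H} (ha : a ∈ M) (hv : v ∈ M) :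
    ‖τ (star v * a * v)‖ ≤ ‖a‖ * (τ (star v * v)).re := by
  have h1 := tr_cs hτ hv (mul_mem ha hv)
  have h2 : star (a * v) * (a * v) = star v * (star a * a) * v := by
    rw [star_mul]
    simp only [mul_assoc]
  have h3 := tr_conj_le hτ hv (mul_mem (star_mem ha) ha) (star_mul_self_nonneg a)
  rw [CStarRing.norm_star_mul_self] at h3
  rw [h2, ← mul_assoc] at h1
  have h4 : 0 ≤ (τ (star v * v)).re := (hτ.nonneg v hv).1
  have h5 : ‖τ (star v * a * v)‖ ^ 2 ≤ (‖a‖ * (τ (star v * v)).re) ^ 2 := by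
    refine h1.trans ?_
    refine (mul_le_mul_of_nonneg_left h3 h4).trans_eq ?_
    ring
  exact le_of_sq_le_sq h5 (by positivity)

theorem exists_test (h : MM M A) (hτ : IsTrace M τ) {n : ℕ} (F : Fin n → Fin n → ℝ)
    (hF : ∀ i j, F i j = F j i) (hF2 : ∀ i j, F i j ^ 2 = 1 / (n : ℝ))
    (hFF : ∀ i l, ∑ j, F i j * F j l = if i = l then 1 else 0)
    {e : Fin n → H →L[ℂ] H} (he : IsPartition A e) (i₀ : Fin n) {v : Fin n → H →L[ℂ] H}
    (hv : ∀ i, PIso M (e i₀) (e i) (v i)) {η : ℝ}
    (hη : ∀ i, (τ (e i)).re - η ≤ (τ (v i * star (v i))).re) :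
    ∃ x ∈ M, IsSelfAdjoint x ∧ ‖x‖ ≤ 1 ∧
      (∀ p ∈ A, IsStarProjection p →
        (τ p).re ^ 2 - 2 * n * η ≤ n * (τ (e i₀)).re * (τ (p * x * p * x)).re) ∧
      ∀ a ∈ A, ‖τ (x * a)‖ ≤ 1 / Real.sqrt n * ‖a‖ := by
  classical
  have hn : 0 < n := i₀.pos
  have hn' : (0 : ℝ) < n := Nat.cast_pos.2 hn
  have hnC : (n : ℂ) ≠ 0 := by exact_mod_cast hn.ne'
  have heM : ∀ i, e i ∈ M := fun i => h.le _ (he.mem i)
  have hvM : ∀ i, v i ∈ M := fun i => (hv i).mem
  have hsvM : ∀ i, star (v i) ∈ M := fun i => star_mem (hvM i)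
  have hes : ∀ i, star (e i) = e i := fun i => (he.proj i).isSelfAdjoint
  have hl : ∀ i, e i * v i = v i := fun i => (hv i).left
  have hr : ∀ i, v i * e i₀ = v i := fun i => (hv i).right
  have hls : ∀ i, star (v i) * e i = star (v i) := by
    intro i
    conv_rhs => rw [← hl i, star_mul, hes]
  have hrs : ∀ i, e i₀ * star (v i) = star (v i) := by
    intro i
    conv_rhs => rw [← hr i, star_mul, hes]
  have hoff : ∀ i j, i ≠ j → ∀ a ∈ A, star (v i) * a * v j = 0 := by
    intro i j hij a ha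
    calc star (v i) * a * v j = (star (v i) * e i) * a * (e j * v j) := by rw [hls, hl]
      _ = star (v i) * (e i * a) * e j * v j := by simp only [mul_assoc]
      _ = star (v i) * (a * e i) * e j * v j := by rw [h.comm _ (he.mem i) a ha]
      _ = star (v i) * a * (e i * e j) * v j := by simp only [mul_assoc]
      _ = 0 := by rw [he.orth i j hij, mul_zero, zero_mul]
  -- the columns
  let w : Fin n → H →L[ℂ] H := fun j => ∑ i, ((F i j : ℝ) : ℂ) • v i
  have hw : ∀ j, w j = ∑ i, ((F i j : ℝ) : ℂ) • v i := fun j => rfl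
  have hwM : ∀ j, w j ∈ M := fun j => sum_mem fun i _ => M.toStarSubalgebra.smul_mem (hvM i) _
  have hws : ∀ j, star (w j) = ∑ i, ((F i j : ℝ) : ℂ) • star (v i) := by
    intro j
    rw [hw, star_sum]
    refine Finset.sum_congr rfl fun i _ => ?_
    rw [star_smul, Complex.star_def, Complex.conj_ofReal]
  let x : H →L[ℂ] H := ∑ j, w j * star (v j)
  have hx : x = ∑ j, w j * star (v j) := rfl
  have hx2 : x = ∑ j, v j * star (w j) := by
    rw [hx]
    simp only [hws]
    simp only [hw, Finset.sum_mul, Finset.mul_sum, smul_mul_assoc, mul_smul_comm]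
    rw [Finset.sum_comm]
    refine Finset.sum_congr rfl fun i _ => Finset.sum_congr rfl fun j _ => ?_
    rw [hF]
  have hxM : x ∈ M := sum_mem fun j _ => mul_mem (hwM j) (hsvM j)
  have hxs : star x = x := by
    conv_rhs => rw [hx2]
    rw [hx, star_sum]
    refine Finset.sum_congr rfl fun j _ => ?_
    rw [star_mul, star_star]
  have hww : ∑ j, w j * star (w j) = ∑ i, v i * star (v i) := by
    have h1 : ∀ j, w j * star (w j) =
        ∑ i, ∑ l, (((F i j : ℝ) : ℂ) * ((F l j : ℝ) : ℂ)) • (v i * star (v l)) := by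
      intro j
      rw [hws, hw, Finset.sum_mul]
      refine Finset.sum_congr rfl fun i _ => ?_
      rw [Finset.mul_sum]
      refine Finset.sum_congr rfl fun l _ => ?_
      rw [smul_mul_smul_comm]
    simp only [h1]
    rw [Finset.sum_comm]
    refine Finset.sum_congr rfl fun i _ => ?_
    rw [Finset.sum_comm]
    have h2 : ∀ l, ∑ j, (((F i j : ℝ) : ℂ) * ((F l j : ℝ) : ℂ)) • (v i * star (v l)) =
        if l = i then v i * star (v l) else 0 := by
      intro l
      rw [← Finset.sum_smul]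
      have h3 : ∑ j, ((F i j : ℝ) : ℂ) * ((F l j : ℝ) : ℂ) = if l = i then 1 else 0 := by
        have h5 : ∑ j, F i j * F l j = if i = l then (1 : ℝ) else 0 := by
          rw [← hFF i l]
          exact Finset.sum_congr rfl fun j _ => by rw [hF l j]
        have h6 : ((∑ j, F i j * F l j : ℝ) : ℂ) = ((if i = l then (1 : ℝ) else 0 : ℝ) : ℂ) := by
          rw [h5]
        rw [Complex.ofReal_sum] at h6
        simp only [Complex.ofReal_mul] at h6
        rw [h6]
        by_cases hil : i = l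
        · rw [if_pos hil, if_pos hil.symm, Complex.ofReal_one]
        · rw [if_neg hil, if_neg (Ne.symm hil), Complex.ofReal_zero]
      rw [h3]
      split_ifs
      · rw [one_smul]
      · rw [zero_smul]
    rw [Finset.sum_congr rfl fun l _ => h2 l, Finset.sum_ite_eq' Finset.univ i,
      if_pos (Finset.mem_univ _)]
  -- the norm bound
  have hsum : ∀ ξ : H, ∑ j, ‖e j ξ‖ ^ 2 = ‖ξ‖ ^ 2 := by
    intro ξ
    have h1 : ∀ j, ‖e j ξ‖ ^ 2 = (⟪ξ, e j ξ⟫_ℂ).re := by
      intro j
      have h2 := to_sq (e j) ξ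
      rw [hes, (he.proj j).isIdempotentElem] at h2
      exact h2
    simp only [h1]
    rw [← Complex.re_sum, ← inner_sum, ← _root_.sum_apply, he.sum,
      one_apply_eq_self, inner_self_eq_norm_sq_to_K]
    norm_cast
  have hη1 : ∀ ξ : H, ∑ j, ‖star (v j) ξ‖ ^ 2 ≤ ‖ξ‖ ^ 2 := by
    intro ξ
    rw [← hsum ξ]
    refine Finset.sum_le_sum fun j _ => ?_
    have h1 : star (v j) ξ = star (v j) (e j ξ) := by
      conv_lhs => rw [← hls j]
      rfl
    have h2 : ‖star (v j) (e j ξ)‖ ≤ ‖e j ξ‖ := by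
      refine (ContinuousLinearMap.le_opNorm _ _).trans ?_
      rw [norm_star]
      have := mul_le_mul_of_nonneg_right (to_norm_le (hv j)) (norm_nonneg (e j ξ))
      rwa [one_mul] at this
    rw [h1]
    exact pow_le_pow_left₀ (norm_nonneg _) h2 2
  have hwsum : ∀ ξ : H, ∑ j, ‖star (w j) ξ‖ ^ 2 = ∑ j, ‖star (v j) ξ‖ ^ 2 := by
    intro ξ
    simp only [to_sq]
    rw [← Complex.re_sum, ← inner_sum, ← _root_.sum_apply, hww,
      _root_.sum_apply, inner_sum, Complex.re_sum]
  have hxn : ‖x‖ ≤ 1 := by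
    refine ContinuousLinearMap.opNorm_le_bound x zero_le_one fun ξ => ?_
    rw [one_mul]
    have h1 : x ξ = ∑ j, v j (star (w j) ξ) := by
      rw [hx2, _root_.sum_apply]
      rfl
    have h2 : ‖∑ j, v j (star (w j) ξ)‖ ^ 2 = ∑ j, ‖v j (star (w j) ξ)‖ ^ 2 := by
      refine to_norm_sum _ fun i j hij => ?_
      rw [← to_star_apply]
      have h3 := hoff i j hij 1 (one_mem A)
      rw [mul_one] at h3
      have h4 : star (v i) (v j (star (w j) ξ)) = (star (v i) * v j) (star (w j) ξ) := rfl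
      rw [h4, h3, _root_.zero_apply, inner_zero_right]
    have h5 : ‖x ξ‖ ^ 2 ≤ ‖ξ‖ ^ 2 := by
      rw [h1, h2]
      refine le_trans ?_ ((hwsum ξ).le.trans (hη1 ξ))
      refine Finset.sum_le_sum fun j _ => ?_
      have h6 : ‖v j (star (w j) ξ)‖ ≤ ‖star (w j) ξ‖ := by
        refine (ContinuousLinearMap.le_opNorm _ _).trans ?_
        have := mul_le_mul_of_nonneg_right (to_norm_le (hv j)) (norm_nonneg (star (w j) ξ))
        rwa [one_mul] at this
      exact pow_le_pow_left₀ (norm_nonneg _) h6 2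
    exact le_of_sq_le_sq h5 (norm_nonneg _)
  -- trace of the pieces
  have hfe : ∀ i, IsStarProjection (e i - v i * star (v i)) := by
    intro i
    refine (hv i).fin.sub_of_mul_eq_right (he.proj i) ?_
    rw [← mul_assoc, hl]
  have hfM : ∀ i, v i * star (v i) ∈ M := fun i => mul_mem (hvM i) (hsvM i)
  have hpos : ∀ i, 0 ≤ (τ (e i)).re - (τ (v i * star (v i))).re := by
    intro i
    have h1 := hτ.nonneg _ (sub_mem (heM i) (hfM i))
    rw [(hfe i).isSelfAdjoint, (hfe i).isIdempotentElem, map_sub, Complex.sub_re] at h1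
    exact h1.1
  have hη0 : 0 ≤ η := by
    have h1 := hpos i₀
    have h2 := hη i₀
    linarith
  refine ⟨x, hxM, hxs, hxn, ?_, ?_⟩
  · intro p hp hpp
    have hpM : p ∈ M := h.le _ hp
    have hps : star p = p := hpp.isSelfAdjoint
    have hp2 : p * p = p := hpp.isIdempotentElem
    let α : Fin n → H →L[ℂ] H := fun i => star (v i) * p * v i
    have hα : ∀ i, α i = star (v i) * p * v i := fun i => rfl
    let S : H →L[ℂ] H := ∑ i, α i
    have hS : S = ∑ i, α i := rfl
    have hαM : ∀ i, α i ∈ M := fun i => mul_mem (mul_mem (hsvM i) hpM) (hvM i)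
    have hSM : S ∈ M := sum_mem fun i _ => hαM i
    have hαs : ∀ i, star (α i) = α i := by
      intro i
      rw [hα, star_mul, star_mul, star_star, hps, mul_assoc]
    have hSs : star S = S := by
      rw [hS, star_sum]
      exact Finset.sum_congr rfl fun i _ => hαs i
    have heS : e i₀ * S = S := by
      rw [hS, Finset.mul_sum]
      refine Finset.sum_congr rfl fun i _ => ?_
      rw [hα, ← mul_assoc, ← mul_assoc, hrs]
    have hvpv : ∀ i j, star (v i) * p * v j = if i = j then α i else 0 := by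
      intro i j
      by_cases hij : i = j
      · subst hij
        rw [if_pos rfl]
      · rw [if_neg hij, hoff i j hij p hp]
    have hwpw : ∀ j, star (w j) * p * w j = ((1 / n : ℝ) : ℂ) • S := by
      intro j
      have h1 : star (w j) * p * w j = ∑ i, ∑ l,
          (((F i j : ℝ) : ℂ) * ((F l j : ℝ) : ℂ)) • (star (v i) * p * v l) := by
        rw [hws, hw, Finset.sum_mul, Finset.sum_mul]
        refine Finset.sum_congr rfl fun i _ => ?_
        rw [Finset.mul_sum]
        refine Finset.sum_congr rfl fun l _ => ?_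
        rw [smul_mul_assoc, smul_mul_smul_comm]
      rw [h1, hS, Finset.smul_sum]
      refine Finset.sum_congr rfl fun i _ => ?_
      rw [Finset.sum_eq_single i]
      · rw [hvpv, if_pos rfl, ← hF2 i j, sq, Complex.ofReal_mul]
      · intro l _ hl'
        rw [hvpv, if_neg (Ne.symm hl'), smul_zero]
      · intro h'
        exact absurd (Finset.mem_univ i) h'
    have hxpx : x * p * x = ∑ j, w j * α j * star (w j) := by
      calc x * p * x = (∑ j, w j * star (v j)) * p * (∑ k, v k * star (w k)) :=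
            congrArg₂ (fun a b => a * p * b) hx hx2
        _ = ∑ j, ∑ k, w j * (star (v j) * p * v k) * star (w k) := by
            rw [Finset.sum_mul, Finset.sum_mul]
            refine Finset.sum_congr rfl fun j _ => ?_
            rw [Finset.mul_sum]
            refine Finset.sum_congr rfl fun k _ => ?_
            simp only [mul_assoc]
        _ = ∑ j, w j * α j * star (w j) := by
            refine Finset.sum_congr rfl fun j _ => ?_
            rw [Finset.sum_eq_single j]
            · intro k _ hk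
              rw [hvpv, if_neg (Ne.symm hk), mul_zero, zero_mul]
            · intro h'
              exact absurd (Finset.mem_univ j) h'
    have htr : τ (p * x * p * x) = ((1 / n : ℝ) : ℂ) * τ (S * S) := by
      have h1 : p * x * p * x = ∑ j, (p * w j * α j) * star (w j) := by
        have h0 : p * x * p * x = p * (x * p * x) := by simp only [mul_assoc]
        rw [h0, hxpx, Finset.mul_sum]
        exact Finset.sum_congr rfl fun j _ => by simp only [mul_assoc]
      rw [h1, map_sum]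
      have h2 : ∀ j, τ ((p * w j * α j) * star (w j)) = ((1 / n : ℝ) : ℂ) * τ (S * α j) := by
        intro j
        rw [hτ.tracial _ (mul_mem (mul_mem hpM (hwM j)) (hαM j)) _ (star_mem (hwM j))]
        have h3 : star (w j) * (p * w j * α j) = (star (w j) * p * w j) * α j := by
          simp only [mul_assoc]
        rw [h3, hwpw, smul_mul_assoc, map_smul, smul_eq_mul]
      rw [Finset.sum_congr rfl fun j _ => h2 j, ← Finset.mul_sum, ← map_sum, ← Finset.mul_sum,
        ← hS]
    have htr2 : (τ (p * x * p * x)).re = 1 / n * (τ (S * S)).re := by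
      rw [htr, Complex.re_ofReal_mul]
    have hcs : (τ S).re ^ 2 ≤ (τ (e i₀)).re * (τ (S * S)).re := by
      have h1 := tr_cs hτ (heM i₀) hSM
      rw [hes, heS, hSs, (he.proj i₀).isIdempotentElem] at h1
      refine le_trans ?_ h1
      rw [← sq_abs]
      exact pow_le_pow_left₀ (abs_nonneg _) (Complex.abs_re_le_norm _) 2
    have hp0 : (0 : H →L[ℂ] H) ≤ p := by
      have h1 := star_mul_self_nonneg p
      rwa [hps, hp2] at h1
    have hg : ∀ i, (τ (p * e i)).re - η ≤ (τ (α i)).re := by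
      intro i
      have h1 : τ (α i) = τ (p * (v i * star (v i))) := by
        have h2 : α i = star (v i) * (p * v i) := by rw [hα, mul_assoc]
        rw [h2, hτ.tracial _ (hsvM i) _ (mul_mem hpM (hvM i)), mul_assoc]
      have hgM := sub_mem (heM i) (hfM i)
      have h3 := tr_conj_le hτ hgM hpM hp0
      rw [(hfe i).isSelfAdjoint, (hfe i).isIdempotentElem, mul_assoc,
        hτ.tracial _ hgM _ (mul_mem hpM hgM), mul_assoc, (hfe i).isIdempotentElem, mul_sub,
        map_sub, Complex.sub_re, ← h1, map_sub, Complex.sub_re] at h3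
      have h4 := hpos i
      have h5 := hη i
      have h6 : ‖p‖ ≤ 1 := hpp.norm_le
      have h7 : ‖p‖ * ((τ (e i)).re - (τ (v i * star (v i))).re) ≤
          1 * ((τ (e i)).re - (τ (v i * star (v i))).re) := mul_le_mul_of_nonneg_right h6 h4
      linarith
    have hm1 : (τ p).re - n * η ≤ (τ S).re := by
      have h1 : τ p = ∑ i, τ (p * e i) := by
        rw [← map_sum, ← Finset.mul_sum, he.sum, mul_one]
      have h2 : (τ S).re = ∑ i, (τ (α i)).re := by
        rw [hS, map_sum, Complex.re_sum]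
      rw [h1, h2, Complex.re_sum]
      have h3 := Finset.sum_le_sum fun i (_ : i ∈ Finset.univ) => hg i
      rw [Finset.sum_sub_distrib, Finset.sum_const, Finset.card_univ, Fintype.card_fin,
        nsmul_eq_mul] at h3
      exact h3
    have hm0 : 0 ≤ (τ S).re := by
      rw [hS, map_sum, Complex.re_sum]
      refine Finset.sum_nonneg fun i _ => ?_
      have h1 := (hτ.nonneg (p * v i) (mul_mem hpM (hvM i))).1
      have h2 : star (p * v i) * (p * v i) = α i := by
        rw [star_mul, hps, hα]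
        calc star (v i) * p * (p * v i) = star (v i) * (p * p) * v i := by simp only [mul_assoc]
          _ = star (v i) * p * v i := by rw [hp2]
      rwa [h2] at h1
    have hτp0 : 0 ≤ (τ p).re := by
      have h1 := (hτ.nonneg p hpM).1
      rwa [hps, hp2] at h1
    have hτp1 : (τ p).re ≤ 1 := by
      have h1 := (hτ.nonneg (1 - p) (sub_mem (one_mem M) hpM)).1
      rw [hpp.one_sub.isSelfAdjoint, hpp.one_sub.isIdempotentElem, map_sub, hτ.one,
        Complex.sub_re, Complex.one_re] at h1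
      linarith
    have hfin : (n : ℝ) * (τ (e i₀)).re * (τ (p * x * p * x)).re =
        (τ (e i₀)).re * (τ (S * S)).re := by
      rw [htr2]
      field_simp
    rw [hfin]
    refine le_trans ?_ hcs
    have hnη : 0 ≤ (n : ℝ) * η := by positivity
    rcases le_or_gt (τ p).re (n * η) with hc | hc
    · nlinarith [sq_nonneg (τ S).re]
    · have h1 : ((τ p).re - n * η) ^ 2 ≤ (τ S).re ^ 2 :=
        pow_le_pow_left₀ (by linarith) hm1 2
      nlinarith [sq_nonneg ((n : ℝ) * η), mul_nonneg hnη (sub_nonneg.2 hτp1)]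
  · intro a ha
    have haM : a ∈ M := h.le _ ha
    have h1 : ∀ j, τ (w j * star (v j) * a) = ((F j j : ℝ) : ℂ) * τ (star (v j) * a * v j) := by
      intro j
      rw [mul_assoc, hτ.tracial _ (hwM j) _ (mul_mem (hsvM j) haM), hw, Finset.mul_sum,
        Finset.sum_eq_single j]
      · rw [mul_smul_comm, map_smul, smul_eq_mul]
      · intro i _ hi
        rw [mul_smul_comm, hoff j i (Ne.symm hi) a ha, smul_zero]
      · intro h'
        exact absurd (Finset.mem_univ j) h'
    have h2 : τ (x * a) = ∑ j, ((F j j : ℝ) : ℂ) * τ (star (v j) * a * v j) := by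
      rw [hx, Finset.sum_mul, map_sum]
      exact Finset.sum_congr rfl fun j _ => h1 j
    rw [h2]
    have h3 : ∀ j, |F j j| = 1 / Real.sqrt n := by
      intro j
      rw [← Real.sqrt_sq_eq_abs, hF2, one_div, one_div, Real.sqrt_inv]
    have h4 : ∀ j, ‖((F j j : ℝ) : ℂ) * τ (star (v j) * a * v j)‖ ≤
        1 / Real.sqrt n * ‖a‖ * (τ (e j)).re := by
      intro j
      rw [norm_mul, Complex.norm_real, Real.norm_eq_abs, h3, mul_assoc (1 / Real.sqrt n)]
      refine mul_le_mul_of_nonneg_left ?_ (by positivity)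
      refine (to_tr_le hτ haM (hvM j)).trans ?_
      refine mul_le_mul_of_nonneg_left ?_ (norm_nonneg a)
      rw [hτ.tracial _ (hsvM j) _ (hvM j)]
      have := hpos j
      linarith
    refine (norm_sum_le _ _).trans ?_
    refine (Finset.sum_le_sum fun j _ => h4 j).trans ?_
    have h5 : ∑ j, (τ (e j)).re = 1 := by
      rw [← Complex.re_sum, ← map_sum, he.sum, hτ.one, Complex.one_re]
    rw [← Finset.mul_sum, h5, mul_one]

end Vale.Agent.P078
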