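import Vale.Agent.Lib.P078L.Trace

/-!
# P078L TwoNorm: from so-paving to a `2`-norm estimate

`two_norm`: for self-adjoint `T ∈ M` and a projection `q ∈ M`:
`τ(T T) = τ(T q T) + τ(T (1-q) T)`; `τ(T (1-q) T) = τ((1-q) T T (1-q)) ≤ ‖T‖² τ(1-q)`
(traciality, `tr_conj_le`); `τ(T q T) = τ(q T T q) = τ(q T q T q) + τ(q T (1-q) T q)` and
`τ(q T (1-q) T q) = τ((1-q) T q T (1-q)) ≤ ‖T‖² τ(1-q)`; `τ(q T q T q) = τ((q T q)⋆ (q T q)) ≤
‖q T q‖²` (`tr_le`).

`pinch_two`: `T = ∑ p_c x p_c - a`: `τ(T T) = τ((∑ p_c x p_c)²) - 2 re τ((∑ p_c x p_c) a) + τ(a a)`;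
`τ((∑_c p_c x p_c)(∑_d p_d x p_d)) = ∑_c τ(p_c x p_c x)` (`p_c p_d = 0`), `τ((∑ p_c x p_c) a) = τ(x a)`
(`p_c` commutes with `a`, `∑ p_c = 1`), `τ(a a) ≥ 0`.
-/

namespace Vale.Agent.P078

open Filter
open scoped InnerProductSpace Topology

universe u

variable {H : Type u} [NormedAddCommGroup H] [InnerProductSpace ℂ H] [CompleteSpace H]
  {M : VonNeumannAlgebra H} {A : StarSubalgebra ℂ (H →L[ℂ] H)} {τ : (H →L[ℂ] H) →ₗ[ℂ] ℂ}

/-- `τ(S r S) ≤ ‖S⋆ S‖ τ(r)` for a projection `r` -/
private theorem twoNorm_aux (hτ : IsTrace M τ) {S r : H →L[ℂ] H} (hS : S ∈ M)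
    (hr : r ∈ M) (hrp : IsStarProjection r) :
    (τ (S * r * star S)).re ≤ ‖S‖ ^ 2 * (τ r).re := by
  have hrr : r * r = r := hrp.isIdempotentElem
  have hrs : star r = r := hrp.isSelfAdjoint
  have hsS : star S ∈ M := star_mem hS
  have h1 : τ (S * r * star S) = τ (star r * (star S * S) * r) := by
    have h2 := hτ.tracial (S * r) (mul_mem hS hr) (r * star S) (mul_mem hr hsS)
    have h3 : S * r * (r * star S) = S * r * star S := by
      rw [mul_assoc, ← mul_assoc r r, hrr, ← mul_assoc]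
    have h4 : r * star S * (S * r) = star r * (star S * S) * r := by
      rw [hrs]
      simp only [mul_assoc]
    rw [h3, h4] at h2
    exact h2
  rw [h1]
  refine (tr_conj_le hτ hr (mul_mem hsS hS) (star_mul_self_nonneg S)).trans ?_
  rw [hrs, hrr, CStarRing.norm_star_mul_self, ← pow_two]

theorem two_norm (hτ : IsTrace M τ) {T q : H →L[ℂ] H} (hT : T ∈ M) (hTs : IsSelfAdjoint T)
    (hq : q ∈ M) (hqp : IsStarProjection q) :
    (τ (T * T)).re ≤ ‖q * T * q‖ ^ 2 + 2 * ‖T‖ ^ 2 * (τ (1 - q)).re := by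
  have hTT : star T = T := hTs
  have hqq : q * q = q := hqp.isIdempotentElem
  have hqs : star q = q := hqp.isSelfAdjoint
  have hr : (1 : H →L[ℂ] H) - q ∈ M := sub_mem (one_mem _) hq
  have hrp : IsStarProjection (1 - q) := hqp.one_sub
  have hr0 : 0 ≤ (τ (1 - q)).re := by
    have h := (hτ.nonneg (1 - q) hr).1
    rwa [hrp.isSelfAdjoint, hrp.isIdempotentElem] at h
  -- first term
  have a1 : (τ (T * (1 - q) * T)).re ≤ ‖T‖ ^ 2 * (τ (1 - q)).re := by
    have h := twoNorm_aux hτ hT hr hrp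
    rwa [hTT] at h
  -- second term
  have a2 : (τ (q * T * (1 - q) * (T * q))).re ≤ ‖T‖ ^ 2 * (τ (1 - q)).re := by
    have h := twoNorm_aux hτ (mul_mem hq hT) hr hrp
    rw [star_mul, hTT, hqs] at h
    refine h.trans ?_
    have h2 : ‖q * T‖ ≤ ‖T‖ := by
      refine (norm_mul_le _ _).trans ?_
      have h3 : ‖q‖ ≤ 1 := hqp.norm_le
      have := norm_nonneg T
      nlinarith
    gcongr
  have a3 : (τ (q * T * q * (q * T * q))).re ≤ ‖q * T * q‖ ^ 2 := by
    have hm : q * T * q ∈ M := mul_mem (mul_mem hq hT) hq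
    have hs : star (q * T * q) = q * T * q := by
      rw [star_mul, star_mul, hTT, hqs, mul_assoc]
    have h := tr_le hτ (mul_mem (star_mem hm) hm) (star_mul_self_nonneg (q * T * q))
    rw [CStarRing.norm_star_mul_self, ← pow_two, hs] at h
    exact h
  have e1 : T * T = T * q * T + T * (1 - q) * T := by
    rw [mul_sub, mul_one, sub_mul]
    abel
  have e2 : τ (T * q * T) = τ (q * T * (T * q)) := by
    have h2 := hτ.tracial (T * q) (mul_mem hT hq) (q * T) (mul_mem hq hT)
    have h3 : T * q * (q * T) = T * q * T := by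
      rw [mul_assoc, ← mul_assoc q q, hqq, ← mul_assoc]
    rw [h3] at h2
    exact h2
  have e3 : q * T * (T * q) = q * T * q * (q * T * q) + q * T * (1 - q) * (T * q) := by
    have h3 : q * T * q * (q * T * q) = q * T * q * (T * q) := by
      calc q * T * q * (q * T * q) = q * T * (q * q) * (T * q) := by simp only [mul_assoc]
        _ = _ := by rw [hqq]
    rw [h3, mul_sub, mul_one, sub_mul]
    abel
  rw [e1, map_add, e2, e3, map_add, Complex.add_re, Complex.add_re]
  linarith

theorem pinch_two (h : MM M A) (hτ : IsTrace M τ) {r : ℕ} {p : Fin r → H →L[ℂ] H}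
    (hp : IsPartition A p) {x a : H →L[ℂ] H} (hx : x ∈ M) (ha : a ∈ A) (has : IsSelfAdjoint a) :
    ∑ c, (τ (p c * x * p c * x)).re - 2 * ‖τ (x * a)‖ ≤
      (τ ((∑ c, p c * x * p c - a) * (∑ c, p c * x * p c - a))).re := by
  have hpM : ∀ c, p c ∈ M := fun c => h.le _ (hp.mem c)
  have haM : a ∈ M := h.le a ha
  have hpp : ∀ c, p c * p c = p c := fun c => (hp.proj c).isIdempotentElem
  have hSM : ∑ c, p c * x * p c ∈ M :=
    sum_mem fun c _ => mul_mem (mul_mem (hpM c) hx) (hpM c)
  have s1 : τ ((∑ c, p c * x * p c) * ∑ c, p c * x * p c) = ∑ c, τ (p c * x * p c * x) := by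
    rw [Finset.sum_mul, map_sum]
    refine Finset.sum_congr rfl fun c _ => ?_
    have h1 : p c * x * p c * ∑ d, p d * x * p d = p c * x * p c * x * p c := by
      rw [Finset.mul_sum, Finset.sum_eq_single c]
      · calc p c * x * p c * (p c * x * p c) = p c * x * (p c * p c) * x * p c := by
              simp only [mul_assoc]
          _ = _ := by rw [hpp]
      · intro d _ hd
        calc p c * x * p c * (p d * x * p d) = p c * x * (p c * p d) * (x * p d) := by
              simp only [mul_assoc]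
          _ = 0 := by rw [hp.orth c d (Ne.symm hd), mul_zero, zero_mul]
      · intro hc
        exact absurd (Finset.mem_univ c) hc
    have hm : p c * x * p c * x ∈ M := mul_mem (mul_mem (mul_mem (hpM c) hx) (hpM c)) hx
    rw [h1, hτ.tracial _ hm _ (hpM c)]
    congr 1
    calc p c * (p c * x * p c * x) = (p c * p c) * x * p c * x := by simp only [mul_assoc]
      _ = _ := by rw [hpp]
  have s2 : τ ((∑ c, p c * x * p c) * a) = τ (x * a) := by
    have h1 : ∀ c, τ (p c * x * p c * a) = τ (x * p c * a) := by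
      intro c
      have h2 : p c * x * p c * a = p c * (x * p c * a) := by simp only [mul_assoc]
      rw [h2, hτ.tracial _ (hpM c) _ (mul_mem (mul_mem hx (hpM c)) haM)]
      congr 1
      calc x * p c * a * p c = x * p c * (a * p c) := by simp only [mul_assoc]
        _ = x * p c * (p c * a) := by rw [h.comm a ha (p c) (hp.mem c)]
        _ = x * (p c * p c) * a := by simp only [mul_assoc]
        _ = _ := by rw [hpp]
    rw [Finset.sum_mul, map_sum, Finset.sum_congr rfl fun c _ => h1 c, ← map_sum,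
      ← Finset.sum_mul, ← Finset.mul_sum, hp.sum, mul_one]
  have s3 : τ (a * ∑ c, p c * x * p c) = τ (x * a) := by
    rw [hτ.tracial _ haM _ hSM, s2]
  have s4 : 0 ≤ (τ (a * a)).re := by
    have h1 := (hτ.nonneg a haM).1
    have h2 : star a = a := has
    rwa [h2] at h1
  rw [sub_mul, mul_sub, mul_sub, map_sub, map_sub, map_sub, s1, s2, s3, Complex.sub_re,
    Complex.sub_re, Complex.sub_re, Complex.re_sum]
  have h5 : (τ (x * a)).re ≤ ‖τ (x * a)‖ := Complex.re_le_norm _
  linarith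

end Vale.Agent.P078
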