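import Vale.Agent.Lib.P078L.Equiv
import Vale.Agent.Lib.P078L.FinePart
import Vale.Agent.Lib.P078L.Group
import Vale.Agent.Lib.P078L.Hadamard
import Vale.Agent.Lib.P078L.TestOp
import Vale.Agent.Lib.P078L.TwoNorm

/-!
# P078L MainL: assembly (helper14)
-/

namespace Vale.Agent.P078

open Filter
open scoped InnerProductSpace Topology

universe u

variable {H : Type u} [NormedAddCommGroup H] [InnerProductSpace ℂ H] [CompleteSpace H]
  {M : VonNeumannAlgebra H} {A : StarSubalgebra ℂ (H →L[ℂ] H)}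

theorem MainL_pinch_norm {r : ℕ} {p : Fin r → H →L[ℂ] H} (hp : IsPartition A p)
    (x : H →L[ℂ] H) : ‖∑ c, p c * x * p c‖ ≤ ‖x‖ :=
  _root_.P078.Part.pinch_norm (A := A) ⟨r, p, hp.mem, hp.proj, hp.orth, hp.sum⟩ x

theorem MainL_step (hM : IsII1 M) (h : MM M A) {ε : ℝ} (hε : 0 < ε) {r : ℕ} (hr : 1 ≤ r)
    (hp : ∀ x ∈ M, IsSelfAdjoint x → SoPavable M A x ε r) {β : ℝ} (hβ : 0 < β) (hβ1 : β ≤ 1) :
    1 / (r : ℝ) ≤ (1 + β) * (ε ^ 2 + β) + β := by
  obtain ⟨τ, hτ⟩ := hM.trace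
  have hr0 : (0 : ℝ) < r := by exact_mod_cast hr
  have hr1 : (1 : ℝ) ≤ r := by exact_mod_cast hr
  -- the size of the matrix
  obtain ⟨n, hk, hn1, F, hF, hF2, hFF⟩ : ∃ n : ℕ, 16 / β ^ 2 < (n : ℝ) ∧ 1 ≤ n ∧
      ∃ F : Fin n → Fin n → ℝ, (∀ i j, F i j = F j i) ∧ (∀ i j, F i j ^ 2 = 1 / (n : ℝ)) ∧
        ∀ i l, ∑ j, F i j * F j l = if i = l then 1 else 0 := by
    obtain ⟨m, hm⟩ := exists_nat_gt (16 / β ^ 2)
    obtain ⟨F, hF, hF2, hFF⟩ := exists_hadamard m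
    have h1 : (m : ℝ) ≤ ((2 ^ m : ℕ) : ℝ) := by exact_mod_cast m.lt_two_pow_self.le
    refine ⟨2 ^ m, hm.trans_le h1, Nat.one_le_two_pow, F, hF, fun i j => ?_, hFF⟩
    rw [hF2]
    push_cast
    rfl
  have hn0 : (0 : ℝ) < n := by exact_mod_cast hn1
  set η : ℝ := β / (2 * n * r) with hη
  have hη0 : 0 < η := by positivity
  have hnη : (n : ℝ) * η = β / (2 * r) := by
    rw [hη]
    field_simp
  have hnηβ : (n : ℝ) * η ≤ β / 2 := by
    rw [hnη]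
    rw [div_le_div_iff₀ (by positivity) (by norm_num)]
    nlinarith
  have hηn : η / 4 ≤ 1 / n := by
    rw [le_div_iff₀ hn0]
    nlinarith
  -- partitions and partial isometries
  obtain ⟨f, hf⟩ := exists_trace_fine h (masa_diffuse h hM.noMin) hτ (η := η / 4) (by positivity)
  have hf0 : ∀ i, 0 ≤ (τ (f.e i)).re := fun i =>
    (tr_nonneg hτ (h.le _ (f.mem i)) ((f.proj i).nonneg)).1
  obtain ⟨e, he, hen⟩ := exists_equal hn1 hτ.one f hf0 hf hηn
  have i₀ : Fin n := ⟨0, hn1⟩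
  have hv : ∀ i, ∃ v, PIso M (e i₀) (e i) v ∧
      min (τ (e i₀)).re (τ (e i)).re - η / 2 ≤ (τ (v * star v)).re := fun i =>
    exists_approx_piso hM.factor hτ (h.le _ (he.mem i₀)) (h.le _ (he.mem i)) (he.proj i₀)
      (he.proj i) (by positivity)
  choose v hv1 hv2 using hv
  have hv3 : ∀ i, (τ (e i)).re - η ≤ (τ (v i * star (v i))).re := by
    intro i
    refine le_trans ?_ (hv2 i)
    have h1 := abs_le.1 (hen i)
    have h2 := abs_le.1 (hen i₀)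
    rcases min_cases (τ (e i₀)).re (τ (e i)).re with ⟨h3, h4⟩ | ⟨h3, h4⟩ <;> rw [h3] <;> linarith
  obtain ⟨x, hxM, hxs, hxn, hxp, hxa⟩ := exists_test h hτ F hF hF2 hFF he i₀ hv1 hv3
  -- paving
  obtain ⟨F0, δ, hδ, hclose⟩ := tr_close hτ (η := β / 16) (by positivity)
  obtain ⟨p, a, q, hpp, haA, has, han, hqM, hq, hqF, hqn⟩ := hp x hxM hxs F0 δ hδ
  have hτq := hclose q hqM hq hqF
  set T : H →L[ℂ] H := ∑ c, p c * x * p c - a with hT
  have hTM : T ∈ M := sub_mem (sum_mem fun c _ =>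
    mul_mem (mul_mem (h.le _ (hpp.mem c)) hxM) (h.le _ (hpp.mem c))) (h.le _ haA)
  have hTs : IsSelfAdjoint T := (isSelfAdjoint_sum _ fun c _ => by
    have h1 := hxs.conjugate_self (hpp.proj c).isSelfAdjoint
    exact h1).sub has
  have hTn : ‖T‖ ≤ 2 := by
    calc ‖T‖ ≤ ‖∑ c, p c * x * p c‖ + ‖a‖ := norm_sub_le _ _
      _ ≤ 1 + 1 := add_le_add ((MainL_pinch_norm hpp x).trans hxn) (han.trans hxn)
      _ = 2 := by norm_num
  have h1 := two_norm hτ hTM hTs hqM hq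
  have h2 := pinch_two h hτ hpp hxM haA has
  rw [← hT] at h2
  have hq0 : 0 ≤ (τ (1 - q)).re := (tr_nonneg hτ (sub_mem (one_mem M) hqM) hq.one_sub.nonneg).1
  have h3 : ‖q * T * q‖ ^ 2 ≤ ε ^ 2 := by
    refine pow_le_pow_left₀ (norm_nonneg _) ?_ 2
    calc ‖q * T * q‖ ≤ ε * ‖x‖ := hqn
      _ ≤ ε * 1 := mul_le_mul_of_nonneg_left hxn hε.le
      _ = ε := mul_one _
  have h4 : 2 * ‖T‖ ^ 2 * (τ (1 - q)).re ≤ β / 2 := by
    have h5 : ‖T‖ ^ 2 ≤ 4 := by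
      calc ‖T‖ ^ 2 ≤ 2 ^ 2 := pow_le_pow_left₀ (norm_nonneg _) hTn 2
        _ = 4 := by norm_num
    nlinarith
  have h6 : 2 * ‖τ (x * a)‖ ≤ β / 2 := by
    have h7 := hxa a haA
    have h8 : ‖a‖ ≤ 1 := han.trans hxn
    have h9 : 4 / β ≤ Real.sqrt n := by
      apply Real.le_sqrt_of_sq_le
      rw [div_pow]
      norm_num
      exact hk.le
    have h10 : 0 < Real.sqrt n := Real.sqrt_pos.2 hn0
    have h11 : 1 / Real.sqrt n ≤ β / 4 := by
      rw [div_le_iff₀ h10]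
      rw [div_le_iff₀ hβ] at h9
      linarith
    have h12 : 1 / Real.sqrt n * ‖a‖ ≤ 1 / Real.sqrt n * 1 :=
      mul_le_mul_of_nonneg_left h8 (by positivity)
    linarith
  have h7 : ∑ c, (τ (p c * x * p c * x)).re ≤ ε ^ 2 + β := by linarith
  -- lower bound for the sum
  have h8 : ∑ c, ((τ (p c)).re ^ 2 - 2 * n * η) ≤
      n * (τ (e i₀)).re * ∑ c, (τ (p c * x * p c * x)).re := by
    rw [Finset.mul_sum]
    exact Finset.sum_le_sum fun c _ => hxp (p c) (hpp.mem c) (hpp.proj c)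
  have h9 : ∑ c, ((τ (p c)).re ^ 2 - 2 * n * η) = ∑ c, (τ (p c)).re ^ 2 - β := by
    rw [Finset.sum_sub_distrib, Finset.sum_const, Finset.card_univ, Fintype.card_fin,
      nsmul_eq_mul]
    have : (r : ℝ) * (2 * n * η) = β := by
      rw [hη]
      field_simp
    rw [this]
  have h10 : (1 : ℝ) / r ≤ ∑ c, (τ (p c)).re ^ 2 := by
    have e1 : ∑ c, (τ (p c)).re = 1 := by
      rw [← Complex.re_sum, ← map_sum, hpp.sum, hτ.one]
      rfl
    have e2 := sq_sum_le_card_mul_sum_sq (s := (Finset.univ : Finset (Fin r)))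
      (f := fun c => (τ (p c)).re)
    rw [e1, Finset.card_univ, Fintype.card_fin] at e2
    rw [div_le_iff₀ hr0]
    linarith
  have h11 : (n : ℝ) * (τ (e i₀)).re ≤ 1 + β := by
    have h12 := (abs_le.1 (hen i₀)).2
    have h13 : (n : ℝ) * ((τ (e i₀)).re - 1 / n) ≤ n * (η / 4) :=
      mul_le_mul_of_nonneg_left h12 hn0.le
    have h14 : (n : ℝ) * ((τ (e i₀)).re - 1 / n) = n * (τ (e i₀)).re - 1 := by
      field_simp
    rw [h14] at h13
    linarith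
  have h12 : 0 ≤ (n : ℝ) * (τ (e i₀)).re :=
    mul_nonneg hn0.le (tr_nonneg hτ (h.le _ (he.mem i₀)) (he.proj i₀).nonneg).1
  have h13 : (n : ℝ) * (τ (e i₀)).re * ∑ c, (τ (p c * x * p c * x)).re ≤
      (1 + β) * (ε ^ 2 + β) := by
    calc (n : ℝ) * (τ (e i₀)).re * ∑ c, (τ (p c * x * p c * x)).re
        ≤ (n : ℝ) * (τ (e i₀)).re * (ε ^ 2 + β) := mul_le_mul_of_nonneg_left h7 h12
      _ ≤ (1 + β) * (ε ^ 2 + β) := mul_le_mul_of_nonneg_right h11 (by positivity)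
  linarith

theorem lower_two (hM : IsII1 M) (h : MM M A) {ε : ℝ} (hε : 0 < ε) {r : ℕ} (hr : 1 ≤ r)
    (hp : ∀ x ∈ M, IsSelfAdjoint x → SoPavable M A x ε r) : 1 / ε ^ 2 ≤ r := by
  have hr0 : (0 : ℝ) < r := by exact_mod_cast hr
  have key : 1 / (r : ℝ) ≤ ε ^ 2 := by
    refine le_of_forall_pos_le_add fun γ hγ => ?_
    set β : ℝ := min 1 (γ / (3 + ε ^ 2)) with hβ
    have h1 : β ≤ 1 := min_le_left _ _
    have h2 : β ≤ γ / (3 + ε ^ 2) := min_le_right _ _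
    have h0 : 0 < β := lt_min one_pos (by positivity)
    have h3 := MainL_step hM h hε hr hp h0 h1
    rw [le_div_iff₀ (by positivity)] at h2
    nlinarith
  rw [div_le_iff₀ (by positivity)]
  rw [div_le_iff₀ hr0] at key
  linarith

end Vale.Agent.P078
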