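import Vale.Agent.Lib.P078G.Cut

/-!
# P078L: the lower bound `1/ε² ≤ n(ε)` for every MASA of every II₁ factor -- definitions

Statement level: `IsMASA`, `IsPartition`, `SoPavable`, `soNumber` (`P078S/Defs`), `IsTrace`,
`IsII1` (here).  The `τ` below is a linear functional on `B(H)`; only its values on `M` matter.
-/

namespace Vale.Agent.P078

open Filter
open scoped InnerProductSpace Topology

universe u

variable {H : Type u} [NormedAddCommGroup H] [InnerProductSpace ℂ H] [CompleteSpace H]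

/-- `τ` is a faithful normal tracial state on `M`; normality is continuity for the weak operator
topology on the unit ball of `M` -/
structure IsTrace (M : VonNeumannAlgebra H) (τ : (H →L[ℂ] H) →ₗ[ℂ] ℂ) : Prop where
  one : τ 1 = 1
  nonneg : ∀ y ∈ M, 0 ≤ (τ (star y * y)).re ∧ (τ (star y * y)).im = 0
  tracial : ∀ x ∈ M, ∀ y ∈ M, τ (x * y) = τ (y * x)
  faithful : ∀ y ∈ M, τ (star y * y) = 0 → y = 0
  normal : ∀ (l : Filter (H →L[ℂ] H)) (T₀ : H →L[ℂ] H), (∀ᶠ T in l, T ∈ M ∧ ‖T‖ ≤ 1) →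
    (∀ v w : H, Tendsto (fun T : H →L[ℂ] H => ⟪v, T w⟫_ℂ) l (𝓝 ⟪v, T₀ w⟫_ℂ)) →
      Tendsto τ l (𝓝 (τ T₀))

/-- `M` is a II₁ factor: trivial centre, a faithful normal tracial state, no minimal projection -/
structure IsII1 (M : VonNeumannAlgebra H) : Prop where
  factor : ∀ x ∈ M, (∀ y ∈ M, x * y = y * x) → ∃ c : ℂ, x = c • 1
  trace : ∃ τ : (H →L[ℂ] H) →ₗ[ℂ] ℂ, IsTrace M τ
  noMin : ∀ p ∈ M, IsStarProjection p → p ≠ 0 →
    ∃ q ∈ M, IsStarProjection q ∧ q ≠ 0 ∧ q ≠ p ∧ q * p = q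

variable {M : VonNeumannAlgebra H} {A : StarSubalgebra ℂ (H →L[ℂ] H)}

/-- pairwise orthogonal projections of `M` below `p`, with supremum `p` -/
structure OrthFamily (M : VonNeumannAlgebra H) (p : H →L[ℂ] H) (S : Set (H →L[ℂ] H)) : Prop where
  mem : ∀ e ∈ S, e ∈ M
  proj : ∀ e ∈ S, IsStarProjection e
  orth : ∀ e ∈ S, ∀ e' ∈ S, e ≠ e' → e * e' = 0
  le : ∀ e ∈ S, e * p = e
  total : ∀ v : H, (∀ e ∈ S, e v = 0) → p v = 0

/-- a partial isometry of `M` from a subprojection of `e` to a subprojection of `f` -/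
structure PIso (M : VonNeumannAlgebra H) (e f v : H →L[ℂ] H) : Prop where
  mem : v ∈ M
  init : IsStarProjection (star v * v)
  fin : IsStarProjection (v * star v)
  right : v * e = v
  left : f * v = v

end Vale.Agent.P078
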