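import Vale.Agent.Lib.P078L.Base

/-!
# P078L Factor: partial isometries between nonzero projections of a factor

`exists_between`: let `K` be the closed span of `{y (e w) : y ∈ M, w ∈ H}`, `z = K.starProjection`.
`K` is invariant under `M` (products) and under `M.commutant` (`t y e w = y e t w`), so `z` commutes
with `M` (`P078.commute_of_invt`) and `z ∈ M` (`proj_mem_M`); `z = c • 1` by `factor`, `z ≠ 0`, so
`z = 1`, `K = ⊤`.  If `f y e = 0` for all `y ∈ M` then `f = 0` on `K = ⊤`.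

`exists_piso`: `Y = star (f y e) * (f y e) ∈ M`, `0 ≤ Y`, `Y ≠ 0`.  Let `0 < c < ‖Y‖`, `g` the cut of
`Y` at `c` (`spectral_cut`), `g' = 1 - g ≠ 0` (otherwise `‖Y‖ ≤ c`), `g' Y = Y g'`,
`c ‖g' ξ‖² ≤ re ⟪ξ, Y ξ⟫`.  Put `k = cfc (fun t => (√(max t c))⁻¹) Y ∈ M` (continuous function) and
`v = f * y * e * k * g'`.  `star v * v = g' k Y k g' = g' * cfc (fun t => t / max t c) Y * g'`; on the
range of `g'` one has `Y ≥ c`, so this is `g'` (show `(1 - cfc (t / max t c)) g' = 0`: the positive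
operator `c - Y` cut: `h = cfc (fun t => max (c - t) 0) Y` satisfies `⟪g' w, h g' w⟫ ≤ 0`-type estimate:
`h Y`-calculus: `h (Y - c) h = -h³ ≤ 0` while `≥ 0` on the range of `g'` (`h g' = g' h`), so
`h g' = 0`; and `1 - t / max t c = max (c - t) 0 / c`).  `e g' = g'` since `Y (1 - e) = 0` and
`c ‖g' ξ‖² ≤ re ⟪ξ, Y ξ⟫` (so `g' (1 - e) = 0`).  `v * star v` is a projection because `star v * v` is
(`v star v v star v = v g' star v = v star v`, using `v g' = v`).
(Alternative: `polar` style argument of your choice; only the statement matters.)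
-/

namespace Vale.Agent.P078

open Filter
open scoped InnerProductSpace Topology

universe u

variable {H : Type u} [NormedAddCommGroup H] [InnerProductSpace ℂ H] [CompleteSpace H]
  {M : VonNeumannAlgebra H}

private theorem fac_invt {S : Set H} {T : H →L[ℂ] H} (hT : ∀ v ∈ S, T v ∈ S) {v : H}
    (hv : v ∈ (Submodule.span ℂ S).topologicalClosure) :
    T v ∈ (Submodule.span ℂ S).topologicalClosure := by
  set K := (Submodule.span ℂ S).topologicalClosure with hK
  have hKc : IsClosed (K : Set H) := Submodule.isClosed_topologicalClosure _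
  have h1 : K ≤ K.comap (T : H →ₗ[ℂ] H) := by
    rw [hK]
    refine Submodule.topologicalClosure_minimal _ ?_ ?_
    · rw [Submodule.span_le]
      intro w hw
      exact Submodule.le_topologicalClosure _ (Submodule.subset_span (hT w hw))
    · exact hKc.preimage T.continuous
  exact h1 hv

theorem exists_between (hf : ∀ x ∈ M, (∀ y ∈ M, x * y = y * x) → ∃ c : ℂ, x = c • 1)
    {e f : H →L[ℂ] H} (he : e ∈ M) (hfM : f ∈ M) (hep : IsStarProjection e) (he0 : e ≠ 0)
    (hf0 : f ≠ 0) : ∃ y ∈ M, f * y * e ≠ 0 := by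
  by_contra hcon
  have hcon' : ∀ y ∈ M, f * y * e = 0 := by
    intro y hy
    by_contra h
    exact hcon ⟨y, hy, h⟩
  set S : Set H := {v | ∃ y ∈ M, ∃ w, v = y (e w)} with hS
  set K : Submodule ℂ H := (Submodule.span ℂ S).topologicalClosure with hK
  have hKc : IsClosed (K : Set H) := Submodule.isClosed_topologicalClosure _
  have : CompleteSpace K := hKc.completeSpace_coe
  have hSK : ∀ v ∈ S, v ∈ K := fun v hv =>
    Submodule.le_topologicalClosure _ (Submodule.subset_span hv)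
  have hM : ∀ x ∈ M, ∀ v ∈ K, x v ∈ K := by
    intro x hx v hv
    refine fac_invt (fun u hu => ?_) hv
    obtain ⟨y, hy, w, rfl⟩ := hu
    exact ⟨x * y, mul_mem hx hy, w, rfl⟩
  have hMc : ∀ t ∈ M.commutant, ∀ v ∈ K, t v ∈ K := by
    intro t ht v hv
    refine fac_invt (fun u hu => ?_) hv
    obtain ⟨y, hy, w, rfl⟩ := hu
    refine ⟨y, hy, t w, ?_⟩
    have h1 := congrArg (fun T : H →L[ℂ] H => T (e w)) (comm_of_mem hy ht)
    have h2 := congrArg (fun T : H →L[ℂ] H => T w) (comm_of_mem he ht)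
    simp only [mul_apply_eq_comp] at h1 h2
    rw [← h1, ← h2]
  have hzM : K.starProjection ∈ M := proj_mem_M hMc
  obtain ⟨c, hc⟩ := hf _ hzM fun y hy =>
    (_root_.P078.commute_of_invt (hM y hy) (hM _ (star_mem hy))).symm
  obtain ⟨w, hw⟩ : ∃ w, e w ≠ 0 := by
    by_contra h
    refine he0 ?_
    ext w
    by_contra h'
    exact h ⟨w, h'⟩
  have h1 : K.starProjection (e w) = e w :=
    Submodule.starProjection_eq_self_iff.mpr (hSK _ ⟨1, one_mem _, w, rfl⟩)
  rw [hc, smul_apply, one_apply_eq_self] at h1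
  have hc1 : c = 1 := by
    have h2 : (c - 1) • e w = 0 := by rw [sub_smul, h1, one_smul, sub_self]
    rcases smul_eq_zero.1 h2 with h3 | h3
    · exact sub_eq_zero.1 h3
    · exact absurd h3 hw
  have hKtop : ∀ v, v ∈ K := by
    intro v
    have h2 : K.starProjection v = v := by rw [hc, hc1, one_smul, one_apply_eq_self]
    rw [← h2]
    exact Submodule.starProjection_apply_mem _ _
  refine hf0 ?_
  ext v
  have h3 : K ≤ LinearMap.ker (f : H →ₗ[ℂ] H) := by
    rw [hK]
    refine Submodule.topologicalClosure_minimal _ ?_ f.isClosed_ker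
    rw [Submodule.span_le]
    rintro u ⟨y, hy, w', rfl⟩
    have h4 := congrArg (fun T : H →L[ℂ] H => T w') (hcon' y hy)
    simpa using h4
  have h5 := h3 (hKtop v)
  rw [LinearMap.mem_ker] at h5
  simpa using h5

private theorem fac_sa {T : H →L[ℂ] H} (hT : IsSelfAdjoint T) (v w : H) :
    ⟪T v, w⟫_ℂ = ⟪v, T w⟫_ℂ := by
  rw [ContinuousLinearMap.isSelfAdjoint_iff'] at hT
  rw [← ContinuousLinearMap.adjoint_inner_right, hT]

private theorem fac_sq (v : H) : (⟪v, v⟫_ℂ).re = ‖v‖ ^ 2 := by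
  rw [inner_self_eq_norm_sq_to_K]
  norm_cast

/-- above the cut the operator `max (c - Y) 0` vanishes -/
private theorem fac_m {Y g : H →L[ℂ] H} (h0 : 0 ≤ Y) {c : ℝ} (hg : IsStarProjection g)
    (hcomm : ∀ t : H →L[ℂ] H, t * Y = Y * t → t * g = g * t)
    (hlow : ∀ ξ : H, c * ‖(1 - g) ξ‖ ^ 2 ≤ (⟪ξ, Y ξ⟫_ℂ).re) :
    cfc (fun t : ℝ => max (c - t) 0) Y * (1 - g) = 0 := by
  have hsa : IsSelfAdjoint Y := IsSelfAdjoint.of_nonneg h0
  set m : H →L[ℂ] H := cfc (fun t : ℝ => max (c - t) 0) Y with hm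
  set s : H →L[ℂ] H := cfc (fun t : ℝ => √(max (c - t) 0)) Y with hs
  have hmsa : IsSelfAdjoint m := cfc_predicate _ _
  have hssa : IsSelfAdjoint s := cfc_predicate _ _
  have hsY : s * Y = Y * s :=
    ((Commute.refl Y).cfc_real (fun t : ℝ => √(max (c - t) 0))).eq
  have hkey : (c : ℂ) • (s * s) - s * Y * s = m * m := by
    have e1 : (c : ℂ) • (s * s) = c • (s * s) := rfl
    have e2 : s * Y * s = cfc (fun t : ℝ => √(max (c - t) 0) * t * √(max (c - t) 0)) Y := by
      rw [cfc_mul (fun t : ℝ => √(max (c - t) 0) * t) (fun t : ℝ => √(max (c - t) 0)) Y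
        (by fun_prop) (by fun_prop), cfc_mul (fun t : ℝ => √(max (c - t) 0)) (fun t : ℝ => t) Y
        (by fun_prop) (by fun_prop), cfc_id' ℝ Y]
    have e3 : s * s = cfc (fun t : ℝ => √(max (c - t) 0) * √(max (c - t) 0)) Y := by
      rw [cfc_mul (fun t : ℝ => √(max (c - t) 0)) (fun t : ℝ => √(max (c - t) 0)) Y
        (by fun_prop) (by fun_prop)]
    have e4 : m * m = cfc (fun t : ℝ => max (c - t) 0 * max (c - t) 0) Y := by
      rw [cfc_mul (fun t : ℝ => max (c - t) 0) (fun t : ℝ => max (c - t) 0) Y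
        (by fun_prop) (by fun_prop)]
    rw [e1, e2, e3, e4, ← cfc_smul c (fun t : ℝ => √(max (c - t) 0) * √(max (c - t) 0)) Y
      (by fun_prop), ← cfc_sub (fun t : ℝ => c • (√(max (c - t) 0) * √(max (c - t) 0)))
      (fun t : ℝ => √(max (c - t) 0) * t * √(max (c - t) 0)) Y (by fun_prop) (by fun_prop)]
    congr 1
    funext t
    have h1 : √(max (c - t) 0) * √(max (c - t) 0) = max (c - t) 0 :=
      Real.mul_self_sqrt (le_max_right _ _)
    have h2 : c • (√(max (c - t) 0) * √(max (c - t) 0)) -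
        √(max (c - t) 0) * t * √(max (c - t) 0) =
        (c - t) * (√(max (c - t) 0) * √(max (c - t) 0)) := by
      rw [smul_eq_mul]
      ring
    rw [h2, h1]
    rcases le_total 0 (c - t) with h | h
    · rw [max_eq_left h]
    · rw [max_eq_right h, mul_zero, mul_zero]
  have hg' : IsStarProjection (1 - g) := hg.one_sub
  have hsg : s * (1 - g) = (1 - g) * s := by
    rw [mul_sub, sub_mul, hcomm s hsY, mul_one, one_mul]
  ext ξ
  have hgg : (1 - g) ((1 - g) ξ) = (1 - g) ξ :=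
    congrArg (fun T : H →L[ℂ] H => T ξ) hg'.isIdempotentElem.eq
  set x : H := (1 - g) ξ with hx
  have hw : (1 - g) (s x) = s x := by
    have h1 := congrArg (fun T : H →L[ℂ] H => T x) hsg
    simp only [mul_apply_eq_comp] at h1
    rw [← h1, hgg]
  have h3 := hlow (s x)
  rw [hw] at h3
  have h4 := congrArg (fun T : H →L[ℂ] H => ⟪x, T x⟫_ℂ) hkey
  simp only [sub_apply, smul_apply, mul_apply_eq_comp, inner_sub_right, inner_smul_right] at h4
  have a1 : ⟪x, s (s x)⟫_ℂ = ⟪s x, s x⟫_ℂ := (fac_sa hssa _ _).symm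
  have a2 : ⟪x, s (Y (s x))⟫_ℂ = ⟪s x, Y (s x)⟫_ℂ := (fac_sa hssa _ _).symm
  have a3 : ⟪x, m (m x)⟫_ℂ = ⟪m x, m x⟫_ℂ := (fac_sa hmsa _ _).symm
  rw [a1, a2, a3] at h4
  have h5 := congrArg Complex.re h4
  rw [Complex.sub_re, Complex.re_ofReal_mul, fac_sq, fac_sq] at h5
  have h6 : ‖m x‖ ^ 2 ≤ 0 := by linarith
  have h7 : ‖m x‖ = 0 := by
    have := sq_nonneg ‖m x‖
    exact pow_eq_zero_iff (two_ne_zero) |>.1 (le_antisymm h6 this)
  rw [mul_apply_eq_comp, zero_apply]
  exact norm_eq_zero.1 h7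

private theorem fac_k {Y : H →L[ℂ] H} (h0 : 0 ≤ Y) {c : ℝ} (hc0 : 0 < c) :
    cfc (fun t : ℝ => (√(max t c))⁻¹) Y * Y * cfc (fun t : ℝ => (√(max t c))⁻¹) Y =
      1 - c⁻¹ • cfc (fun t : ℝ => max (c - t) 0) Y := by
  have hsa : IsSelfAdjoint Y := IsSelfAdjoint.of_nonneg h0
  have hcont : Continuous (fun t : ℝ => (√(max t c))⁻¹) := by
    refine Continuous.inv₀ (by fun_prop) fun t => ?_
    exact (Real.sqrt_pos.2 (lt_of_lt_of_le hc0 (le_max_right _ _))).ne'
  have e2 : cfc (fun t : ℝ => (√(max t c))⁻¹) Y * Y * cfc (fun t : ℝ => (√(max t c))⁻¹) Y =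
      cfc (fun t : ℝ => (√(max t c))⁻¹ * t * (√(max t c))⁻¹) Y := by
    rw [cfc_mul (fun t : ℝ => (√(max t c))⁻¹ * t) (fun t : ℝ => (√(max t c))⁻¹) Y
      (hcont.mul continuous_id).continuousOn hcont.continuousOn,
      cfc_mul (fun t : ℝ => (√(max t c))⁻¹) (fun t : ℝ => t) Y
      hcont.continuousOn continuous_id.continuousOn, cfc_id' ℝ Y]
  have e1 : (1 : H →L[ℂ] H) = cfc (fun _ : ℝ => (1 : ℝ)) Y := (cfc_const_one ℝ Y hsa).symm
  have e3 : c⁻¹ • cfc (fun t : ℝ => max (c - t) 0) Y =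
      cfc (fun t : ℝ => c⁻¹ • max (c - t) 0) Y :=
    (cfc_smul c⁻¹ (fun t : ℝ => max (c - t) 0) Y (by fun_prop)).symm
  rw [e2, e1, e3, ← cfc_sub (fun _ : ℝ => (1 : ℝ)) (fun t : ℝ => c⁻¹ • max (c - t) 0) Y
    (by fun_prop) (by fun_prop)]
  congr 1
  funext t
  have hmax : 0 < max t c := lt_of_lt_of_le hc0 (le_max_right _ _)
  have h1 : √(max t c) * √(max t c) = max t c := Real.mul_self_sqrt hmax.le
  have h2 : (√(max t c))⁻¹ * t * (√(max t c))⁻¹ = t / (√(max t c) * √(max t c)) := by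
    rw [div_eq_mul_inv, mul_inv]
    ring
  rw [h2, h1, smul_eq_mul]
  rcases le_total t c with h | h
  · rw [max_eq_right h, max_eq_left (sub_nonneg.2 h)]
    field_simp
    ring
  · rw [max_eq_left h, max_eq_right (sub_nonpos.2 h), mul_zero, sub_zero, div_self]
    exact (lt_of_lt_of_le hc0 h).ne'

theorem exists_piso {e f y : H →L[ℂ] H} (he : e ∈ M) (hfM : f ∈ M) (hep : IsStarProjection e)
    (hfp : IsStarProjection f) (hy : y ∈ M) (h0 : f * y * e ≠ 0) :
    ∃ v, PIso M e f v ∧ v ≠ 0 := by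
  set X : H →L[ℂ] H := f * y * e with hX
  set Y : H →L[ℂ] H := star X * X with hY
  have hXM : X ∈ M := mul_mem (mul_mem hfM hy) he
  have hYM : Y ∈ M := mul_mem (star_mem hXM) hXM
  have hY0 : 0 ≤ Y := star_mul_self_nonneg X
  have hYne : Y ≠ 0 := fun h => h0 (CStarRing.star_mul_self_eq_zero_iff X |>.1 h)
  have hYn : 0 < ‖Y‖ := norm_pos_iff.2 hYne
  set c : ℝ := ‖Y‖ / 2 with hc
  have hc0 : 0 < c := by positivity
  obtain ⟨g, hgM, hgp, hgc, hg1, hg2⟩ := spectral_cut hYM hY0 hc0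
  have hm := fac_m hY0 hgp hgc hg2
  set m : H →L[ℂ] H := cfc (fun t : ℝ => max (c - t) 0) Y with hmdef
  set g' : H →L[ℂ] H := 1 - g with hg'
  have hg'p : IsStarProjection g' := hgp.one_sub
  have hg'M : g' ∈ M := sub_mem (one_mem _) hgM
  have hg'0 : g' ≠ 0 := by
    intro h
    have h1 : g = 1 := (sub_eq_zero.1 h).symm
    have h2 : ‖Y‖ ≤ c := by
      refine ContinuousLinearMap.opNorm_le_bound _ hc0.le fun v => ?_
      have h3 := hg1 v
      rw [h1] at h3
      simpa using h3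
    rw [hc] at h2
    linarith
  set k : H →L[ℂ] H := cfc (fun t : ℝ => (√(max t c))⁻¹) Y with hk
  have hksa : IsSelfAdjoint k := cfc_predicate _ _
  have hkM : k ∈ M := by
    refine mem_of_comm fun t ht => ?_
    have h1 : Commute Y t := comm_of_mem hYM ht
    exact ((h1.cfc_real (fun t : ℝ => (√(max t c))⁻¹)).eq).symm
  have hkYk : k * Y * k = 1 - c⁻¹ • m := fac_k hY0 hc0
  have hXe : X * e = X := by rw [hX, mul_assoc, hep.isIdempotentElem.eq]
  have hfX : f * X = X := by rw [hX, ← mul_assoc, ← mul_assoc, hfp.isIdempotentElem.eq]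
  have hYe : Y * e = Y := by rw [hY, mul_assoc, hXe]
  have hg'e : g' * e = g' := by
    have h1 : g' * (1 - e) = 0 := by
      ext ξ
      have h2 := hg2 ((1 - e) ξ)
      have h3 : Y ((1 - e) ξ) = 0 := by
        have h4 : Y * (1 - e) = 0 := by rw [mul_sub, mul_one, hYe, sub_self]
        have h5 := congrArg (fun T : H →L[ℂ] H => T ξ) h4
        simpa using h5
      rw [h3, inner_zero_right, Complex.zero_re] at h2
      have h6 : ‖g' ((1 - e) ξ)‖ ^ 2 ≤ 0 := by
        by_contra h7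
        have := mul_pos hc0 (not_le.1 h7)
        linarith
      have h8 : ‖g' ((1 - e) ξ)‖ = 0 :=
        pow_eq_zero_iff (two_ne_zero) |>.1 (le_antisymm h6 (sq_nonneg _))
      rw [mul_apply_eq_comp, zero_apply]
      exact norm_eq_zero.1 h8
    rw [mul_sub, mul_one] at h1
    exact (sub_eq_zero.1 h1).symm
  set v : H →L[ℂ] H := X * k * g' with hv
  have hvg : v * g' = v := by rw [hv, mul_assoc, hg'p.isIdempotentElem.eq]
  have hsv : star v = g' * k * star X := by
    rw [hv, star_mul, star_mul, hksa.star_eq, hg'p.isSelfAdjoint.star_eq, mul_assoc]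
  have hvv : star v * v = g' := by
    have h1 : star v * v = g' * (k * Y * k) * g' := by
      rw [hsv, hv, hY]
      simp only [mul_assoc]
    have h2 : g' * (c⁻¹ • m) * g' = 0 := by
      rw [mul_assoc g' (c⁻¹ • m) g', smul_mul_assoc c⁻¹ m g', hm, smul_zero, mul_zero]
    have h3 : g' * (1 - c⁻¹ • m) * g' = g' * g' - g' * (c⁻¹ • m) * g' := by
      rw [mul_sub g' 1 (c⁻¹ • m), mul_one g', sub_mul g' (g' * (c⁻¹ • m)) g']
    rw [h1, hkYk, h3, h2, sub_zero]
    exact hg'p.isIdempotentElem.eq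
  refine ⟨v, ⟨mul_mem (mul_mem hXM hkM) hg'M, ?_, ?_, ?_, ?_⟩, ?_⟩
  · rw [hvv]
    exact hg'p
  · refine ⟨?_, ?_⟩
    · change v * star v * (v * star v) = v * star v
      rw [mul_assoc, ← mul_assoc (star v), hvv, ← mul_assoc, hvg]
    · exact IsSelfAdjoint.mul_star_self v
  · rw [hv, mul_assoc, hg'e]
  · rw [hv, ← mul_assoc, ← mul_assoc, hfX]
  · intro h
    rw [h, mul_zero] at hvv
    exact hg'0 hvv.symm

end Vale.Agent.P078
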