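import Vale.Agent.Lib.P078L.TrNormal
import Vale.Agent.Lib.P078L.Factor

/-!
# P078L Equiv: approximate equivalence of projections of a II₁ factor

`exists_approx_piso`: By Zorn there is a maximal set `V` of nonzero partial isometries `v` with
`PIso M e f v`, pairwise orthogonal: for `v ≠ w` in `V`, `v * star w = 0` and `star v * w = 0`.
Let `s` be the projection onto the closed span of the ranges of the `star v * v`, `t` that of the
`v * star v`: `s, t ∈ M` (`proj_mem_M`), `s ≤ e`, `t ≤ f`.  If `e - s ≠ 0` and `f - t ≠ 0` then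
`exists_between` and `exists_piso` for `e - s`, `f - t` give `w ≠ 0` contradicting maximality.  So
`s = e` or `t = f`: then the family `{star v * v}` (or `{v * star v}`) is an `OrthFamily` for `e`
(or `f`), and `tr_exhaust` gives a finite subset (choose for each projection of the finite set a
`v ∈ V`; distinct `v` have orthogonal, hence distinct, initial projections) whose sum
`v = ∑ v_i` is a partial isometry (`star v * v = ∑ star v_i * v_i`) with
`τ(star v * v) ≥ τ(e) - η` (or `τ(v * star v) ≥ τ(f) - η`); `τ(star v * v) = τ(v * star v)`.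
-/

namespace Vale.Agent.P078

open Filter
open scoped InnerProductSpace Topology

universe u

variable {H : Type u} [NormedAddCommGroup H] [InnerProductSpace ℂ H] [CompleteSpace H]
  {M : VonNeumannAlgebra H} {τ : (H →L[ℂ] H) →ₗ[ℂ] ℂ}

/-- the part of `e` which is killed by all `v ∈ S` -/
private theorem equiv_rest {e : H →L[ℂ] H} (he : e ∈ M) (hep : IsStarProjection e)
    {S : Set (H →L[ℂ] H)} (hS : ∀ v ∈ S, v ∈ M ∧ v * e = v) {x : H} (hx : ∀ v ∈ S, v x = 0)
    (hex : e x ≠ 0) : ∃ e' ∈ M, IsStarProjection e' ∧ e' ≠ 0 ∧ e' * e = e' ∧ e * e' = e' ∧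
      ∀ v ∈ S, v * e' = 0 := by
  let K : Submodule ℂ H :=
    { carrier := {y | e y = y ∧ ∀ v ∈ S, v y = 0}
      add_mem' := by
        rintro a b ⟨ha, ha'⟩ ⟨hb, hb'⟩
        exact ⟨by rw [map_add, ha, hb], fun v hv => by rw [map_add, ha' v hv, hb' v hv, add_zero]⟩
      zero_mem' := ⟨map_zero _, fun v _ => map_zero _⟩
      smul_mem' := by
        rintro c a ⟨ha, ha'⟩
        exact ⟨by rw [map_smul, ha], fun v hv => by rw [map_smul, ha' v hv, smul_zero]⟩ }
  have hKmem : ∀ y, y ∈ K ↔ e y = y ∧ ∀ v ∈ S, v y = 0 := fun y => Iff.rfl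
  have hKc : IsClosed (K : Set H) := by
    have h1 : (K : Set H) = {y | e y = y} ∩ ⋂ v ∈ S, {y | v y = 0} := by
      ext y
      simp only [Set.mem_inter_iff, Set.mem_iInter, Set.mem_ofPred_eq]
      exact Iff.rfl
    rw [h1]
    refine (isClosed_eq e.continuous continuous_id).inter ?_
    exact isClosed_biInter fun v _ => isClosed_eq v.continuous continuous_const
  have hcs : CompleteSpace K := hKc.completeSpace_coe
  have hmem : ∀ v, K.starProjection v ∈ K := fun v => Submodule.starProjection_apply_mem _ _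
  have hpr : IsStarProjection K.starProjection := isStarProjection_starProjection
  have hee : e * K.starProjection = K.starProjection := by
    ext v
    exact (hmem v).1
  refine ⟨K.starProjection, ?_, hpr, ?_, ?_, hee, ?_⟩
  · refine proj_mem_M fun t ht y hy => ?_
    refine ⟨?_, fun v hv => ?_⟩
    · have h1 := congrArg (fun T : H →L[ℂ] H => T y) (comm_of_mem he ht)
      simp only [mul_apply_eq_comp] at h1
      rw [h1, hy.1]
    · have h1 := congrArg (fun T : H →L[ℂ] H => T y) (comm_of_mem (hS v hv).1 ht)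
      simp only [mul_apply_eq_comp] at h1
      rw [h1, hy.2 v hv, map_zero]
  · intro h0
    have h1 : e x ∈ K := by
      refine ⟨?_, fun v hv => ?_⟩
      · rw [← mul_apply_eq_comp, hep.isIdempotentElem.eq]
      · rw [← mul_apply_eq_comp, (hS v hv).2]
        exact hx v hv
    have h2 : K.starProjection (e x) = e x := Submodule.starProjection_eq_self_iff.2 h1
    rw [h0] at h2
    exact hex h2.symm
  · have h1 := congrArg star hee
    rwa [star_mul, hpr.isSelfAdjoint.star_eq, hep.isSelfAdjoint.star_eq] at h1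
  · intro v hv
    ext y
    exact (hmem y).2 v hv

/-- admissible sets of partial isometries -/
private structure EqGood (M : VonNeumannAlgebra H) (e f : H →L[ℂ] H) (S : Set (H →L[ℂ] H)) :
    Prop where
  piso : ∀ v ∈ S, PIso M e f v
  ne : ∀ v ∈ S, v ≠ 0
  orth : ∀ v ∈ S, ∀ w ∈ S, v ≠ w → v * star w = 0
  orth' : ∀ v ∈ S, ∀ w ∈ S, v ≠ w → star v * w = 0

private theorem equiv_zorn (M : VonNeumannAlgebra H) (e f : H →L[ℂ] H) :
    ∃ S, Maximal (fun S => S ∈ {S | EqGood M e f S}) S := by
  refine zorn_subset _ fun c hc hchain => ?_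
  refine ⟨⋃₀ c, ⟨?_, ?_, ?_, ?_⟩, fun s hs => Set.subset_sUnion_of_mem hs⟩
  · rintro v ⟨s, hs, hv⟩
    exact (hc hs).piso v hv
  · rintro v ⟨s, hs, hv⟩
    exact (hc hs).ne v hv
  · rintro v ⟨s, hs, hv⟩ w ⟨t, ht, hw⟩ hvw
    rcases hchain.total hs ht with h | h
    · exact (hc ht).orth v (h hv) w hw hvw
    · exact (hc hs).orth v hv w (h hw) hvw
  · rintro v ⟨s, hs, hv⟩ w ⟨t, ht, hw⟩ hvw
    rcases hchain.total hs ht with h | h
    · exact (hc ht).orth' v (h hv) w hw hvw
    · exact (hc hs).orth' v hv w (h hw) hvw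

private theorem equiv_sum {e f : H →L[ℂ] H} {S : Set (H →L[ℂ] H)} (hS : EqGood M e f S)
    {T : Finset (H →L[ℂ] H)} (hT : (T : Set (H →L[ℂ] H)) ⊆ S) :
    PIso M e f (∑ v ∈ T, v) ∧
      star (∑ v ∈ T, v) * (∑ v ∈ T, v) = ∑ v ∈ T, star v * v ∧
      (∑ v ∈ T, v) * star (∑ v ∈ T, v) = ∑ v ∈ T, v * star v := by
  have h1 : star (∑ v ∈ T, v) * (∑ v ∈ T, v) = ∑ v ∈ T, star v * v := by
    rw [star_sum, Finset.sum_mul_sum]
    refine Finset.sum_congr rfl fun v hv => ?_
    refine Finset.sum_eq_single_of_mem v hv fun w hw hwv => ?_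
    exact hS.orth' v (hT hv) w (hT hw) (Ne.symm hwv)
  have h2 : (∑ v ∈ T, v) * star (∑ v ∈ T, v) = ∑ v ∈ T, v * star v := by
    rw [star_sum, Finset.sum_mul_sum]
    refine Finset.sum_congr rfl fun v hv => ?_
    refine Finset.sum_eq_single_of_mem v hv fun w hw hwv => ?_
    exact hS.orth v (hT hv) w (hT hw) (Ne.symm hwv)
  refine ⟨⟨?_, ?_, ?_, ?_, ?_⟩, h1, h2⟩
  · exact sum_mem fun v hv => (hS.piso v (hT hv)).mem
  · rw [h1]
    refine ⟨?_, ?_⟩
    · rw [IsIdempotentElem, Finset.sum_mul_sum]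
      refine Finset.sum_congr rfl fun v hv => ?_
      rw [Finset.sum_eq_single_of_mem v hv]
      · exact (hS.piso v (hT hv)).init.isIdempotentElem.eq
      · intro w hw hwv
        rw [mul_assoc, ← mul_assoc v, hS.orth v (hT hv) w (hT hw) (Ne.symm hwv), zero_mul,
          mul_zero]
    · rw [IsSelfAdjoint, star_sum]
      exact Finset.sum_congr rfl fun v hv => (hS.piso v (hT hv)).init.isSelfAdjoint.star_eq
  · rw [h2]
    refine ⟨?_, ?_⟩
    · rw [IsIdempotentElem, Finset.sum_mul_sum]
      refine Finset.sum_congr rfl fun v hv => ?_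
      rw [Finset.sum_eq_single_of_mem v hv]
      · exact (hS.piso v (hT hv)).fin.isIdempotentElem.eq
      · intro w hw hwv
        rw [mul_assoc, ← mul_assoc (star v), hS.orth' v (hT hv) w (hT hw) (Ne.symm hwv), zero_mul,
          mul_zero]
    · rw [IsSelfAdjoint, star_sum]
      exact Finset.sum_congr rfl fun v hv => (hS.piso v (hT hv)).fin.isSelfAdjoint.star_eq
  · rw [Finset.sum_mul]
    exact Finset.sum_congr rfl fun v hv => (hS.piso v (hT hv)).right
  · rw [Finset.mul_sum]
    exact Finset.sum_congr rfl fun v hv => (hS.piso v (hT hv)).left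

/-- `star v * v` and `v` have the same kernel -/
private theorem equiv_ker {v : H →L[ℂ] H} {x : H} (h : (star v * v) x = 0) : v x = 0 := by
  have h1 : ⟪v x, v x⟫_ℂ = 0 := by
    rw [← ContinuousLinearMap.adjoint_inner_left, ← ContinuousLinearMap.star_eq_adjoint,
      ← mul_apply_eq_comp, h, inner_zero_left]
  exact inner_self_eq_zero.1 h1

theorem exists_approx_piso
    (hf : ∀ x ∈ M, (∀ y ∈ M, x * y = y * x) → ∃ c : ℂ, x = c • 1) (hτ : IsTrace M τ)
    {e f : H →L[ℂ] H} (he : e ∈ M) (hfM : f ∈ M) (hep : IsStarProjection e)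
    (hfp : IsStarProjection f) {η : ℝ} (hη : 0 < η) :
    ∃ v, PIso M e f v ∧ min (τ e).re (τ f).re - η ≤ (τ (v * star v)).re := by
  classical
  obtain ⟨S, hSmax⟩ := equiv_zorn M e f
  have hS : EqGood M e f S := hSmax.prop
  have hright : ∀ v ∈ S, v ∈ M ∧ v * e = v := fun v hv => ⟨(hS.piso v hv).mem, (hS.piso v hv).right⟩
  have hleft : ∀ v ∈ S, star v * f = star v := fun v hv => by
    have h1 := congrArg star (hS.piso v hv).left
    rwa [star_mul, hfp.isSelfAdjoint.star_eq] at h1
  -- one of the two families is total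
  have htot : (∀ x : H, (∀ v ∈ S, v x = 0) → e x = 0) ∨
      (∀ x : H, (∀ v ∈ S, star v x = 0) → f x = 0) := by
    by_contra hcon
    rw [not_or] at hcon
    obtain ⟨hc1, hc2⟩ := hcon
    push Not at hc1 hc2
    obtain ⟨x, hx, hex⟩ := hc1
    obtain ⟨y, hy, hfy⟩ := hc2
    obtain ⟨e', he'M, he'p, he'0, he'e, hee', hkill⟩ := equiv_rest he hep hright hx hex
    obtain ⟨f', hf'M, hf'p, hf'0, hf'f, hff', hkill'⟩ :=
      equiv_rest (S := (fun v : H →L[ℂ] H => star v) '' S) hfM hfp (by
        rintro _ ⟨v, hv, rfl⟩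
        exact ⟨star_mem (hS.piso v hv).mem, hleft v hv⟩) (x := y) (by
        rintro _ ⟨v, hv, rfl⟩
        exact hy v hv) hfy
    obtain ⟨z, hzM, hz0⟩ := exists_between hf he'M hf'M he'p he'0 hf'0
    obtain ⟨w, hw, hw0⟩ := exists_piso he'M hf'M he'p hf'p hzM hz0
    have hwe : PIso M e f w := by
      refine ⟨hw.mem, hw.init, hw.fin, ?_, ?_⟩
      · rw [← hw.right, mul_assoc, he'e]
      · rw [← hw.left, ← mul_assoc, hff']
    have o1 : ∀ v ∈ S, v * star w = 0 := by
      intro v hv
      have h1 := congrArg star hw.right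
      rw [star_mul, he'p.isSelfAdjoint.star_eq] at h1
      rw [← h1, ← mul_assoc, hkill v hv, zero_mul]
    have o2 : ∀ v ∈ S, star v * w = 0 := by
      intro v hv
      rw [← hw.left, ← mul_assoc, hkill' (star v) ⟨v, hv, rfl⟩, zero_mul]
    have o1' : ∀ v ∈ S, w * star v = 0 := by
      intro v hv
      have h1 := congrArg star (o1 v hv)
      rwa [star_mul, star_star, star_zero] at h1
    have o2' : ∀ v ∈ S, star w * v = 0 := by
      intro v hv
      have h1 := congrArg star (o2 v hv)
      rwa [star_mul, star_star, star_zero] at h1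
    have hgood : EqGood M e f (insert w S) := by
      refine ⟨?_, ?_, ?_, ?_⟩
      · rintro v (rfl | hv)
        · exact hwe
        · exact hS.piso v hv
      · rintro v (rfl | hv)
        · exact hw0
        · exact hS.ne v hv
      · rintro v (rfl | hv) v' (rfl | hv') hvv
        · exact absurd rfl hvv
        · exact o1' v' hv'
        · exact o1 v hv
        · exact hS.orth v hv v' hv' hvv
      · rintro v (rfl | hv) v' (rfl | hv') hvv
        · exact absurd rfl hvv
        · exact o2' v' hv'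
        · exact o2 v hv
        · exact hS.orth' v hv v' hv' hvv
    have h3 : w ∈ S := hSmax.le_of_ge (y := insert w S) hgood (Set.subset_insert _ _)
      (Set.mem_insert _ _)
    have h4 := hkill w h3
    rw [hw.right] at h4
    exact hw0 h4
  rcases htot with htot | htot
  · -- the initial projections exhaust `e`
    have hfam : OrthFamily M e ((fun v : H →L[ℂ] H => star v * v) '' S) := by
      refine ⟨?_, ?_, ?_, ?_, ?_⟩
      · rintro _ ⟨v, hv, rfl⟩
        exact mul_mem (star_mem (hS.piso v hv).mem) (hS.piso v hv).mem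
      · rintro _ ⟨v, hv, rfl⟩
        exact (hS.piso v hv).init
      · rintro _ ⟨v, hv, rfl⟩ _ ⟨w, hw, rfl⟩ hvw
        have hne : v ≠ w := fun h => hvw (by rw [h])
        beta_reduce
        rw [mul_assoc, ← mul_assoc v, hS.orth v hv w hw hne, zero_mul, mul_zero]
      · rintro _ ⟨v, hv, rfl⟩
        beta_reduce
        rw [mul_assoc, (hS.piso v hv).right]
      · intro x hx
        exact htot x fun v hv => equiv_ker (hx _ ⟨v, hv, rfl⟩)
    obtain ⟨G, hG, hGη⟩ := tr_exhaust hτ he hep hfam hη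
    have hch : ∀ p : H →L[ℂ] H, ∃ v : H →L[ℂ] H, p ∈ G → v ∈ S ∧ star v * v = p := by
      intro p
      by_cases hp : p ∈ G
      · obtain ⟨v, hv, hvp⟩ := hG hp
        exact ⟨v, fun _ => ⟨hv, hvp⟩⟩
      · exact ⟨0, fun h => absurd h hp⟩
    choose g hg using hch
    have hT : ((G.image g : Finset (H →L[ℂ] H)) : Set (H →L[ℂ] H)) ⊆ S := by
      intro v hv
      rw [Finset.mem_coe, Finset.mem_image] at hv
      obtain ⟨p, hp, rfl⟩ := hv
      exact (hg p hp).1
    obtain ⟨h1, h2, h3⟩ := equiv_sum hS hT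
    have h4 : ∑ v ∈ G.image g, star v * v = ∑ p ∈ G, p := by
      rw [Finset.sum_image]
      · exact Finset.sum_congr rfl fun p hp => (hg p hp).2
      · intro p hp q hq hpq
        rw [← (hg p hp).2, ← (hg q hq).2, hpq]
    refine ⟨_, h1, ?_⟩
    rw [hτ.tracial _ h1.mem _ (star_mem h1.mem), h2, h4]
    rw [map_sub, Complex.sub_re] at hGη
    have := min_le_left (τ e).re (τ f).re
    linarith
  · -- the final projections exhaust `f`
    have hfam : OrthFamily M f ((fun v : H →L[ℂ] H => v * star v) '' S) := by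
      refine ⟨?_, ?_, ?_, ?_, ?_⟩
      · rintro _ ⟨v, hv, rfl⟩
        exact mul_mem (hS.piso v hv).mem (star_mem (hS.piso v hv).mem)
      · rintro _ ⟨v, hv, rfl⟩
        exact (hS.piso v hv).fin
      · rintro _ ⟨v, hv, rfl⟩ _ ⟨w, hw, rfl⟩ hvw
        have hne : v ≠ w := fun h => hvw (by rw [h])
        beta_reduce
        rw [mul_assoc, ← mul_assoc (star v), hS.orth' v hv w hw hne, zero_mul, mul_zero]
      · rintro _ ⟨v, hv, rfl⟩
        beta_reduce
        rw [mul_assoc, hleft v hv]
      · intro x hx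
        refine htot x fun v hv => ?_
        refine equiv_ker ?_
        rw [star_star]
        exact hx _ ⟨v, hv, rfl⟩
    obtain ⟨G, hG, hGη⟩ := tr_exhaust hτ hfM hfp hfam hη
    have hch : ∀ p : H →L[ℂ] H, ∃ v : H →L[ℂ] H, p ∈ G → v ∈ S ∧ v * star v = p := by
      intro p
      by_cases hp : p ∈ G
      · obtain ⟨v, hv, hvp⟩ := hG hp
        exact ⟨v, fun _ => ⟨hv, hvp⟩⟩
      · exact ⟨0, fun h => absurd h hp⟩
    choose g hg using hch
    have hT : ((G.image g : Finset (H →L[ℂ] H)) : Set (H →L[ℂ] H)) ⊆ S := by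
      intro v hv
      rw [Finset.mem_coe, Finset.mem_image] at hv
      obtain ⟨p, hp, rfl⟩ := hv
      exact (hg p hp).1
    obtain ⟨h1, h2, h3⟩ := equiv_sum hS hT
    have h4 : ∑ v ∈ G.image g, v * star v = ∑ p ∈ G, p := by
      rw [Finset.sum_image]
      · exact Finset.sum_congr rfl fun p hp => (hg p hp).2
      · intro p hp q hq hpq
        rw [← (hg p hp).2, ← (hg q hq).2, hpq]
    refine ⟨_, h1, ?_⟩
    rw [h3, h4]
    rw [map_sub, Complex.sub_re] at hGη
    have := min_le_right (τ e).re (τ f).re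
    linarith

end Vale.Agent.P078
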