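import Vale.Agent.Lib.P078L.Trace

/-!
# P078L TrNormal: consequences of normality of the trace

* `tr_close`: apply `normal` to the filter `l` on operators generated by the sets
  `{T ∈ M, ‖T‖ ≤ 1, |⟪v, T w⟫| < δ}` (`⨅` of principal filters over `(v, w, δ)`), `T₀ = 0`: some finite
  intersection of these sets is contained in `{|τ T| < η}`; take for `F` the finitely many `w`, and
  `δ` small with respect to the `‖v‖`.  Here `T = 1 - q`.
* `tr_exhaust`: the net `G ↦ ∑_{e ∈ G} e` (finite `G ⊆ S`, `atTop` on `Finset S`) converges weakly to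
  `p` (`total`: the closed span of the ranges is the range of `p`), `‖·‖ ≤ 1`; push the filter
  forward and use `normal`.
-/

namespace Vale.Agent.P078

open Filter
open scoped InnerProductSpace Topology

universe u

variable {H : Type u} [NormedAddCommGroup H] [InnerProductSpace ℂ H] [CompleteSpace H]
  {M : VonNeumannAlgebra H} {τ : (H →L[ℂ] H) →ₗ[ℂ] ℂ}

private theorem TrNormal_tendsto {ι : Type*} {l : Filter ι} (hτ : IsTrace M τ)
    {T : ι → H →L[ℂ] H} (hM : ∀ i, T i ∈ M) (h1 : ∀ i, ‖T i‖ ≤ 1)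
    (h0 : ∀ v w : H, Tendsto (fun i => ⟪v, T i w⟫_ℂ) l (𝓝 0)) :
    Tendsto (fun i => τ (T i)) l (𝓝 0) := by
  have h := hτ.normal (l.map T) 0 (by
    rw [Filter.eventually_map]
    exact Filter.Eventually.of_forall fun i => ⟨hM i, h1 i⟩) (fun v w => by
    rw [Filter.tendsto_map'_iff, _root_.zero_apply, inner_zero_right]
    exact h0 v w)
  rw [Filter.tendsto_map'_iff, map_zero] at h
  exact h

theorem tr_close (hτ : IsTrace M τ) {η : ℝ} (hη : 0 < η) : ∃ (F : Finset H) (δ : ℝ), 0 < δ ∧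
    ∀ q ∈ M, IsStarProjection q → (∀ ξ ∈ F, ‖(1 - q) ξ‖ < δ) → (τ (1 - q)).re < η := by
  classical
  by_contra hcon
  have h1 : ∀ i : Finset H × ℕ, ∃ q ∈ M, IsStarProjection q ∧
      (∀ ξ ∈ i.1, ‖(1 - q) ξ‖ < 1 / ((i.2 : ℝ) + 1)) ∧ η ≤ (τ (1 - q)).re := by
    intro i
    by_contra h2
    refine hcon ⟨i.1, 1 / ((i.2 : ℝ) + 1), by positivity, fun q hq hqp hF => ?_⟩
    by_contra h3
    exact h2 ⟨q, hq, hqp, hF, not_lt.1 h3⟩
  choose q hqM hqp hqF hqη using h1
  have hsnd : Tendsto (Prod.snd : Finset H × ℕ → ℕ) atTop atTop := by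
    rw [← Filter.prod_atTop_atTop_eq]
    exact Filter.tendsto_snd
  have h2 : Tendsto (fun i => τ (1 - q i)) atTop (𝓝 0) := by
    refine TrNormal_tendsto hτ (fun i => sub_mem (one_mem M) (hqM i))
      (fun i => IsStarProjection.norm_le (1 - q i) (hqp i).one_sub) fun v w => ?_
    have h3 : Tendsto (fun i : Finset H × ℕ => ‖v‖ * (1 / ((i.2 : ℝ) + 1))) atTop (𝓝 0) := by
      have h4 := (tendsto_one_div_add_atTop_nhds_zero_nat (𝕜 := ℝ)).comp hsnd
      have h5 := h4.const_mul ‖v‖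
      rw [mul_zero] at h5
      exact h5
    refine squeeze_zero_norm' ?_ h3
    filter_upwards [Filter.eventually_ge_atTop (({w}, 0) : Finset H × ℕ)] with i hi
    have h6 : w ∈ i.1 := hi.1 (Finset.mem_singleton_self w)
    exact (norm_inner_le_norm _ _).trans
      (mul_le_mul_of_nonneg_left (hqF i w h6).le (norm_nonneg _))
  have h3 : Tendsto (fun i => (τ (1 - q i)).re) atTop (𝓝 (0 : ℂ).re) :=
    (Complex.continuous_re.tendsto 0).comp h2
  rw [Complex.zero_re] at h3
  obtain ⟨i, hi⟩ := (h3.eventually (gt_mem_nhds hη)).exists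
  exact absurd hi (not_lt.2 (hqη i))

theorem tr_exhaust (hτ : IsTrace M τ) {p : H →L[ℂ] H} (hp : p ∈ M) (hpp : IsStarProjection p)
    {S : Set (H →L[ℂ] H)} (hS : OrthFamily M p S) {η : ℝ} (hη : 0 < η) :
    ∃ G : Finset (H →L[ℂ] H), (G : Set (H →L[ℂ] H)) ⊆ S ∧ (τ (p - ∑ e ∈ G, e)).re < η := by
  classical
  set T : Finset S → H →L[ℂ] H := fun G => p - ∑ e ∈ G, (e : H →L[ℂ] H) with hT
  have hpstar : star p = p := hpp.isSelfAdjoint
  have hpe : ∀ e ∈ S, p * e = e := by
    intro e he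
    have h1 := congrArg star (hS.le e he)
    rw [star_mul, hpstar, (hS.proj e he).isSelfAdjoint.star_eq] at h1
    exact h1
  have hTM : ∀ G, T G ∈ M := fun G =>
    sub_mem hp (sum_mem fun e _ => hS.mem e e.2)
  have hsp : ∀ G : Finset S, (∑ e ∈ G, (e : H →L[ℂ] H)) * p = ∑ e ∈ G, (e : H →L[ℂ] H) := by
    intro G
    rw [Finset.sum_mul]
    exact Finset.sum_congr rfl fun e _ => hS.le e e.2
  have hps : ∀ G : Finset S, p * (∑ e ∈ G, (e : H →L[ℂ] H)) = ∑ e ∈ G, (e : H →L[ℂ] H) := by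
    intro G
    rw [Finset.mul_sum]
    exact Finset.sum_congr rfl fun e _ => hpe e e.2
  have hes : ∀ (G : Finset S) (e : S), e ∈ G →
      (e : H →L[ℂ] H) * (∑ e ∈ G, (e : H →L[ℂ] H)) = e := by
    intro G e he
    rw [Finset.mul_sum, Finset.sum_eq_single e]
    · exact (hS.proj e e.2).isIdempotentElem
    · intro e' _ hne
      exact hS.orth e e.2 e' e'.2 fun h => hne (Subtype.ext h.symm)
    · intro h
      exact absurd he h
  have hss : ∀ G : Finset S, (∑ e ∈ G, (e : H →L[ℂ] H)) * (∑ e ∈ G, (e : H →L[ℂ] H)) =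
      ∑ e ∈ G, (e : H →L[ℂ] H) := by
    intro G
    rw [Finset.sum_mul]
    exact Finset.sum_congr rfl fun e he => hes G e he
  have hTp : ∀ G, IsStarProjection (T G) := by
    intro G
    refine ⟨?_, ?_⟩
    · change (p - ∑ e ∈ G, (e : H →L[ℂ] H)) * (p - ∑ e ∈ G, (e : H →L[ℂ] H)) =
        p - ∑ e ∈ G, (e : H →L[ℂ] H)
      rw [mul_sub, sub_mul, sub_mul, hsp, hps, hss, hpp.isIdempotentElem.eq]
      abel
    · change star (p - ∑ e ∈ G, (e : H →L[ℂ] H)) = p - ∑ e ∈ G, (e : H →L[ℂ] H)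
      rw [star_sub, hpstar, star_sum]
      congr 1
      exact Finset.sum_congr rfl fun e _ => (hS.proj e e.2).isSelfAdjoint.star_eq
  have hTn : ∀ G, ‖T G‖ ≤ 1 := fun G => IsStarProjection.norm_le (T G) (hTp G)
  have hpT : ∀ G, p * T G = T G := by
    intro G
    change p * (p - ∑ e ∈ G, (e : H →L[ℂ] H)) = p - ∑ e ∈ G, (e : H →L[ℂ] H)
    rw [mul_sub, hps, hpp.isIdempotentElem.eq]
  have heT : ∀ (G : Finset S) (e : S), e ∈ G → (e : H →L[ℂ] H) * T G = 0 := by
    intro G e he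
    change (e : H →L[ℂ] H) * (p - ∑ e ∈ G, (e : H →L[ℂ] H)) = 0
    rw [mul_sub, hS.le e e.2, hes G e he, sub_self]
  have hadj : ∀ {e : H →L[ℂ] H}, star e = e → ∀ v w : H, ⟪e v, w⟫_ℂ = ⟪v, e w⟫_ℂ := by
    intro e he v w
    have h1 := ContinuousLinearMap.adjoint_inner_left e w v
    rw [← ContinuousLinearMap.star_eq_adjoint, he] at h1
    exact h1
  let U : Ultrafilter (Finset S) := Ultrafilter.of atTop
  have hU : (U : Filter (Finset S)) ≤ atTop := Ultrafilter.of_le atTop
  obtain ⟨L, -, hL⟩ := _root_.P078.exists_weak_limit U T hTn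
  have hL0 : L = 0 := by
    have h1 : ∀ v, ∀ e ∈ S, e (L v) = 0 := by
      intro v e he
      refine ext_inner_right ℂ fun w => ?_
      rw [inner_zero_left, hadj (hS.proj e he).isSelfAdjoint.star_eq]
      refine tendsto_nhds_unique (hL v (e w)) ?_
      refine (tendsto_const_nhds (x := (0 : ℂ))).congr' ?_
      have h2 : ∀ᶠ G in (U : Filter (Finset S)), (⟨e, he⟩ : S) ∈ G :=
        hU (by
          filter_upwards [Filter.eventually_ge_atTop ({⟨e, he⟩} : Finset S)] with G hG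
          exact hG (Finset.mem_singleton_self _))
      filter_upwards [h2] with G hG
      rw [← hadj (hS.proj e he).isSelfAdjoint.star_eq]
      have h3 := congrArg (fun T : H →L[ℂ] H => T v) (heT G ⟨e, he⟩ hG)
      change e (T G v) = 0 at h3
      rw [h3, inner_zero_left]
    have h2 : ∀ v, p (L v) = 0 := fun v => hS.total (L v) (h1 v)
    ext v
    rw [_root_.zero_apply, ← h2 v]
    refine ext_inner_right ℂ fun w => ?_
    rw [hadj hpstar]
    refine tendsto_nhds_unique (hL v w) ((hL v (p w)).congr fun G => ?_)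
    rw [← hadj hpstar]
    have h3 := congrArg (fun T : H →L[ℂ] H => T v) (hpT G)
    change p (T G v) = T G v at h3
    rw [h3]
  have h2 : Tendsto (fun G => τ (T G)) (U : Filter (Finset S)) (𝓝 0) := by
    refine TrNormal_tendsto hτ hTM hTn fun v w => ?_
    have h3 := hL w v
    rw [hL0] at h3
    have h4 := (Complex.continuous_conj.tendsto _).comp h3
    have h5 : (starRingEnd ℂ) ⟪(0 : H →L[ℂ] H) w, v⟫_ℂ = 0 := by
      simp
    rw [h5] at h4
    refine h4.congr fun G => ?_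
    exact inner_conj_symm _ _
  have h3 : Tendsto (fun G => (τ (T G)).re) (U : Filter (Finset S)) (𝓝 (0 : ℂ).re) :=
    (Complex.continuous_re.tendsto 0).comp h2
  rw [Complex.zero_re] at h3
  obtain ⟨G, hG⟩ := (h3.eventually (gt_mem_nhds hη)).exists
  refine ⟨G.map (Function.Embedding.subtype _), ?_, ?_⟩
  · intro e he
    rw [Finset.mem_coe, Finset.mem_map] at he
    obtain ⟨e', -, rfl⟩ := he
    exact e'.2
  · rw [Finset.sum_map]
    exact hG

end Vale.Agent.P078
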