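import Vale.Agent.Lib.P078L.Base

/-!
# P078L Trace: elementary facts about a faithful normal tracial state

`cfc f y ∈ M` for self-adjoint `y ∈ M` (`mem_of_comm`, `Commute.cfc_real`), so
`y = sqrt y * sqrt y` with `sqrt y ∈ M` for `0 ≤ y ∈ M` (`CFC.sqrt` or `cfc Real.sqrt`).
* `tr_nonneg`: from `nonneg` for `star s * s`, `s = sqrt y`.
* `tr_proj_pos`: `p = star p * p` and `faithful`.
* `tr_le`: `‖y‖ • 1 - y ≥ 0` for `0 ≤ y`; `tr_mono` similarly.
* `tr_cs` (Cauchy-Schwarz): expand `0 ≤ τ((x + c y)⋆ (x + c y))`; `τ (star y) = conj (τ y)` follows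
  from the polarization of the reality in `nonneg` (`tr_star`).
* `tr_bound`: `|τ y| ≤ ‖y‖` for `y ∈ M` from `tr_cs` with `x = 1` and `tr_le`.
-/

namespace Vale.Agent.P078

open Filter
open scoped InnerProductSpace Topology

universe u

variable {H : Type u} [NormedAddCommGroup H] [InnerProductSpace ℂ H] [CompleteSpace H]
  {M : VonNeumannAlgebra H} {τ : (H →L[ℂ] H) →ₗ[ℂ] ℂ}

private theorem tr_smul_mem {y : H →L[ℂ] H} (hy : y ∈ M) (c : ℂ) : c • y ∈ M :=
  M.toStarSubalgebra.smul_mem hy c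

private theorem tr_exists_sqrt {y : H →L[ℂ] H} (hy : y ∈ M) (h0 : 0 ≤ y) :
    ∃ s ∈ M, star s * s = y := by
  have hsa : IsSelfAdjoint y := IsSelfAdjoint.of_nonneg h0
  have hs : IsSelfAdjoint (cfc Real.sqrt y) := cfc_predicate _ _
  refine ⟨cfc Real.sqrt y, mem_of_comm fun t ht => ?_, ?_⟩
  · have h1 : Commute y t := comm_of_mem hy ht
    exact ((h1.cfc_real Real.sqrt).eq).symm
  · rw [hs.star_eq, ← cfc_mul Real.sqrt Real.sqrt y
      (Real.continuous_sqrt.continuousOn) (Real.continuous_sqrt.continuousOn)]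
    have h2 : cfc (fun t : ℝ => Real.sqrt t * Real.sqrt t) y = cfc (fun t : ℝ => t) y := by
      refine cfc_congr fun t ht => ?_
      exact Real.mul_self_sqrt (spectrum_nonneg_of_nonneg h0 ht)
    rw [h2, cfc_id' ℝ y]

private theorem tr_expand (τ : (H →L[ℂ] H) →ₗ[ℂ] ℂ) {x y : H →L[ℂ] H} (c : ℂ) :
    τ (star (x + c • y) * (x + c • y)) = τ (star x * x) + c * τ (star x * y) +
      (starRingEnd ℂ) c * τ (star y * x) + (starRingEnd ℂ) c * c * τ (star y * y) := by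
  have h1 : star (x + c • y) * (x + c • y) = star x * x + c • (star x * y) +
      (starRingEnd ℂ) c • (star y * x) + ((starRingEnd ℂ) c * c) • (star y * y) := by
    rw [star_add, star_smul, add_mul, mul_add, mul_add, mul_smul_comm, smul_mul_assoc,
      smul_mul_assoc, mul_smul_comm, smul_smul]
    simp only [RCLike.star_def]
    abel
  rw [h1]
  simp only [map_add, map_smul, smul_eq_mul]

theorem tr_star (hτ : IsTrace M τ) {y : H →L[ℂ] H} (hy : y ∈ M) :
    τ (star y) = (starRingEnd ℂ) (τ y) := by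
  have hm : ∀ c : ℂ, (1 : H →L[ℂ] H) + c • y ∈ M := fun c => add_mem (one_mem M) (tr_smul_mem hy c)
  have h1 := (hτ.nonneg _ (hm 1)).2
  have h2 := (hτ.nonneg _ (hm Complex.I)).2
  have h3 := (hτ.nonneg _ hy).2
  rw [tr_expand τ] at h1 h2
  simp only [star_one, one_mul, mul_one, hτ.one, map_one, Complex.conj_I] at h1 h2
  simp only [Complex.add_im, Complex.mul_im, Complex.mul_re, Complex.neg_re, Complex.neg_im,
    Complex.I_re, Complex.I_im, Complex.one_im, h3] at h1 h2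
  apply Complex.ext
  · rw [Complex.conj_re]
    linarith
  · rw [Complex.conj_im]
    linarith

theorem tr_nonneg (hτ : IsTrace M τ) {y : H →L[ℂ] H} (hy : y ∈ M) (h0 : 0 ≤ y) :
    0 ≤ (τ y).re ∧ (τ y).im = 0 := by
  obtain ⟨s, hs, rfl⟩ := tr_exists_sqrt hy h0
  exact hτ.nonneg s hs

theorem tr_mono (hτ : IsTrace M τ) {x y : H →L[ℂ] H} (hx : x ∈ M) (hy : y ∈ M) (h : x ≤ y) :
    (τ x).re ≤ (τ y).re := by
  have h1 := (tr_nonneg hτ (sub_mem hy hx) (sub_nonneg.2 h)).1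
  rw [map_sub, Complex.sub_re] at h1
  linarith

private theorem tr_le_norm {y : H →L[ℂ] H} (h0 : 0 ≤ y) :
    y ≤ (‖y‖ : ℂ) • (1 : H →L[ℂ] H) := by
  have h1 := (IsSelfAdjoint.of_nonneg h0).le_algebraMap_norm_self
  rwa [Algebra.algebraMap_eq_smul_one] at h1

theorem tr_le (hτ : IsTrace M τ) {y : H →L[ℂ] H} (hy : y ∈ M) (h0 : 0 ≤ y) :
    (τ y).re ≤ ‖y‖ := by
  have h1 := tr_mono hτ hy (tr_smul_mem (one_mem M) (‖y‖ : ℂ)) (tr_le_norm h0)
  rw [map_smul, hτ.one, smul_eq_mul, mul_one, Complex.ofReal_re] at h1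
  exact h1

theorem tr_proj_pos (hτ : IsTrace M τ) {p : H →L[ℂ] H} (hp : p ∈ M) (hpp : IsStarProjection p)
    (h0 : p ≠ 0) : 0 < (τ p).re := by
  have h1 : star p * p = p := by
    rw [hpp.isSelfAdjoint.star_eq]
    exact hpp.isIdempotentElem
  have h2 := hτ.nonneg p hp
  rw [h1] at h2
  rcases h2.1.lt_or_eq with h | h
  · exact h
  · exfalso
    apply h0
    apply hτ.faithful p hp
    rw [h1]
    exact Complex.ext h.symm h2.2

theorem tr_cs (hτ : IsTrace M τ) {x y : H →L[ℂ] H} (hx : x ∈ M) (hy : y ∈ M) :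
    ‖τ (star x * y)‖ ^ 2 ≤ (τ (star x * x)).re * (τ (star y * y)).re := by
  set z : ℂ := τ (star x * y) with hz
  have hzc : τ (star y * x) = (starRingEnd ℂ) z := by
    rw [hz, ← tr_star hτ (mul_mem (star_mem hx) hy), star_mul, star_star]
  have key : ∀ t : ℝ, 0 ≤ (‖z‖ ^ 2 * (τ (star y * y)).re) * (t * t) + (-(2 * ‖z‖ ^ 2)) * t +
      (τ (star x * x)).re := by
    intro t
    have h1 := (hτ.nonneg _ (add_mem hx (tr_smul_mem hy (-(t : ℂ) * (starRingEnd ℂ) z)))).1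
    rw [tr_expand τ, hzc, ← hz] at h1
    have e1 : (-(t : ℂ) * (starRingEnd ℂ) z) * z = ((-(t * ‖z‖ ^ 2) : ℝ) : ℂ) := by
      rw [mul_assoc, Complex.conj_mul']
      push_cast
      ring
    have e2 : (starRingEnd ℂ) (-(t : ℂ) * (starRingEnd ℂ) z) * (starRingEnd ℂ) z =
        ((-(t * ‖z‖ ^ 2) : ℝ) : ℂ) := by
      rw [← map_mul, e1, Complex.conj_ofReal]
    have e3 : (starRingEnd ℂ) (-(t : ℂ) * (starRingEnd ℂ) z) * (-(t : ℂ) * (starRingEnd ℂ) z) =
        ((t * t * ‖z‖ ^ 2 : ℝ) : ℂ) := by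
      rw [map_mul, map_neg, Complex.conj_ofReal, Complex.conj_conj, mul_mul_mul_comm,
        Complex.mul_conj']
      push_cast
      ring
    rw [e1, e2, e3] at h1
    simp only [Complex.add_re, Complex.ofReal_re, Complex.re_ofReal_mul] at h1
    linarith
  have h2 := discrim_le_zero key
  unfold discrim at h2
  rcases (sq_nonneg ‖z‖).lt_or_eq with h | h
  · by_contra hc
    push Not at hc
    have h3 := mul_lt_mul_of_pos_left hc h
    linarith
  · rw [← h]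
    exact mul_nonneg (hτ.nonneg x hx).1 (hτ.nonneg y hy).1

theorem tr_bound (hτ : IsTrace M τ) {y : H →L[ℂ] H} (hy : y ∈ M) : ‖τ y‖ ≤ ‖y‖ := by
  have h1 := tr_cs hτ (one_mem M) hy
  rw [star_one, one_mul, one_mul, hτ.one, Complex.one_re, one_mul] at h1
  have h2 := tr_le hτ (mul_mem (star_mem hy) hy) (star_mul_self_nonneg y)
  rw [CStarRing.norm_star_mul_self] at h2
  have h3 : ‖τ y‖ ^ 2 ≤ ‖y‖ ^ 2 := by
    rw [sq ‖y‖]
    exact h1.trans h2
  exact (sq_le_sq₀ (norm_nonneg _) (norm_nonneg _)).1 h3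

/-- `‖y b‖ ≤ ‖b‖` in the `2`-norm: `τ(y⋆ b y) ≤ ‖b‖ τ(y⋆ y)` -/
theorem tr_conj_le (hτ : IsTrace M τ) {y b : H →L[ℂ] H} (hy : y ∈ M) (hb : b ∈ M) (h0 : 0 ≤ b) :
    (τ (star y * b * y)).re ≤ ‖b‖ * (τ (star y * y)).re := by
  have h1 : star y * b * y ≤ star y * ((‖b‖ : ℂ) • (1 : H →L[ℂ] H)) * y :=
    star_left_conjugate_le_conjugate (tr_le_norm h0) y
  have h2 : star y * ((‖b‖ : ℂ) • (1 : H →L[ℂ] H)) * y = (‖b‖ : ℂ) • (star y * y) := by
    rw [mul_smul_comm, mul_one, smul_mul_assoc]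
  rw [h2] at h1
  have h3 := tr_mono hτ (mul_mem (mul_mem (star_mem hy) hb) hy)
    (tr_smul_mem (mul_mem (star_mem hy) hy) (‖b‖ : ℂ)) h1
  rw [map_smul, smul_eq_mul, Complex.re_ofReal_mul] at h3
  exact h3

end Vale.Agent.P078
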